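import Mathlib
import Vale.Agent.P100.Puncture
import Vale.Agent.P100.WeakHess

/-!
# Local bounds by the Newtonian potential

For `u ≥ 0`, `-Δu = f ≥ 0` off the origin and `1 ≤ r < r + h ≤ 4` the values of `u` and `Du` on
`1 ≤ |x| ≤ r + h/2` are bounded by the potentials of `f` on `A = {1/2 ≤ |y| ≤ r + h}` plus
`C h^(-M) ∫_A u`.

Proof: Green's formula against `η k_ε(· - x)` with a cut-off `η`, where `k_ε` is the regularised
kernel `(|z|² + ε)^((2-n)/2)` or its derivative in a direction `v`, and `ε → 0`.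
-/

open MeasureTheory Set Metric Filter Topology InnerProductSpace
open scoped RealInnerProductSpace

noncomputable section

namespace Vale.Agent.P100.Souplet

variable {E : Type*} [NormedAddCommGroup E] [InnerProductSpace ℝ E]

/-- `⟨y - x, v⟩ (|y - x|² + ε)^b`. -/
def kerV (x v : E) (ε b : ℝ) (y : E) : ℝ := ⟪y - x, v⟫ * (‖y - x‖ ^ 2 + ε) ^ b

/-- `(|y - x|² + ε)^b`. -/
def kerR (x : E) (ε b : ℝ) (y : E) : ℝ := (‖y - x‖ ^ 2 + ε) ^ b

theorem contDiff_kerR (x : E) {ε : ℝ} (hε : 0 < ε) (b : ℝ) : ContDiff ℝ 2 (kerR x ε b) :=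
  (((contDiff_id.sub contDiff_const).norm_sq ℝ).add contDiff_const).rpow_const_of_ne
    fun y => (by positivity : (0 : ℝ) < ‖y - x‖ ^ 2 + ε).ne'

theorem contDiff_kerV (x v : E) {ε : ℝ} (hε : 0 < ε) (b : ℝ) : ContDiff ℝ 2 (kerV x v ε b) :=
  ((contDiff_id.sub contDiff_const).inner ℝ contDiff_const).mul (contDiff_kerR x hε b)

theorem hasFDerivAt_kerR (x : E) {ε : ℝ} (hε : 0 < ε) (b : ℝ) (y : E) :
    HasFDerivAt (kerR x ε b) ((2 * b * (‖y - x‖ ^ 2 + ε) ^ (b - 1)) • innerSL ℝ (y - x)) y := by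
  have := (((hasFDerivAt_id y).sub_const x).norm_sq.add_const ε).rpow_const (p := b)
    (Or.inl (by positivity : (0 : ℝ) < ‖y - x‖ ^ 2 + ε).ne')
  refine this.congr_fderiv ?_
  ext w
  simp
  ring

theorem hasFDerivAt_inner_sub (x v y : E) :
    HasFDerivAt (fun z => ⟪z - x, v⟫) (innerSL ℝ v) y := by
  have := ((innerSL ℝ v).hasFDerivAt (x := y)).sub_const ⟪v, x⟫
  refine this.congr_of_eventuallyEq (Eventually.of_forall fun z => ?_)
  simp [inner_sub_right, real_inner_comm v]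

theorem fderiv_kerR (x : E) {ε : ℝ} (hε : 0 < ε) (b : ℝ) (y e : E) :
    fderiv ℝ (kerR x ε b) y e = 2 * b * (⟪y - x, e⟫ * (‖y - x‖ ^ 2 + ε) ^ (b - 1)) := by
  rw [(hasFDerivAt_kerR x hε b y).fderiv]
  simp [inner_sub_left]
  ring

theorem fderiv_kerV (x v : E) {ε : ℝ} (hε : 0 < ε) (b : ℝ) (y e : E) :
    fderiv ℝ (kerV x v ε b) y e =
      ⟪v, e⟫ * kerR x ε b y + 2 * b * (⟪y - x, v⟫ * kerV x e ε (b - 1) y) := by
  have h := ((hasFDerivAt_inner_sub x v y).fun_mul (hasFDerivAt_kerR x hε b y)).fderiv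
  rw [show kerV x v ε b = fun z => ⟪z - x, v⟫ * kerR x ε b z from rfl, h]
  simp [kerV, kerR, inner_sub_left]
  ring

theorem hasFDerivAt_inner_sub_apply (x v y e : E) :
    fderiv ℝ (fun z => ⟪z - x, v⟫) y e = ⟪v, e⟫ := by
  rw [(hasFDerivAt_inner_sub x v y).fderiv]; rfl

variable [FiniteDimensional ℝ E] {ι : Type*} [Fintype ι] (B : OrthonormalBasis ι ℝ E)

/-- The sum of the second derivatives along the basis. -/
def lapB (φ : E → ℝ) (y : E) : ℝ := ∑ i, fderiv ℝ (fun z => fderiv ℝ φ z (B i)) y (B i)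

theorem sum_inner_sq (z : E) : ∑ i, ⟪z, B i⟫ ^ 2 = ‖z‖ ^ 2 := by
  rw [← B.sum_sq_norm_inner_left z]
  exact Finset.sum_congr rfl fun i _ => by rw [Real.norm_eq_abs, sq_abs]

theorem sum_inner_mul (v z : E) : ∑ i, ⟪v, B i⟫ * ⟪z, B i⟫ = ⟪v, z⟫ := by
  rw [← B.sum_inner_mul_inner v z]
  exact Finset.sum_congr rfl fun i _ => by rw [real_inner_comm (B i) z]

theorem lapB_kerR (x : E) {ε : ℝ} (hε : 0 < ε) {b : ℝ}
    (hb : 2 * b = 2 - (Fintype.card ι : ℝ)) (y : E) :
    lapB B (kerR x ε b) y = (Fintype.card ι : ℝ) * (2 * b) * ε * kerR x ε (b - 2) y := by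
  have hs : 0 < ‖y - x‖ ^ 2 + ε := by positivity
  have h1 : ∀ i, fderiv ℝ (fun z => fderiv ℝ (kerR x ε b) z (B i)) y (B i) =
      2 * b * (kerR x ε (b - 1) y + 2 * (b - 1) * ⟪y - x, B i⟫ ^ 2 * kerR x ε (b - 2) y) := by
    intro i
    rw [show (fun z => fderiv ℝ (kerR x ε b) z (B i)) = fun z => 2 * b * kerV x (B i) ε (b - 1) z
      from funext fun z => fderiv_kerR x hε b z (B i),
      fderiv_const_mul ((contDiff_kerV x (B i) hε _).differentiable (by simp) y)]
    simp only [ContinuousLinearMap.smul_apply, smul_eq_mul, fderiv_kerV x (B i) hε,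
      real_inner_self_eq_norm_sq, B.norm_eq_one]
    rw [show b - 1 - 1 = b - 2 by ring]
    simp only [kerV, kerR]
    ring
  simp only [lapB, h1, ← Finset.mul_sum, Finset.sum_add_distrib, Finset.sum_const,
    Finset.card_univ, nsmul_eq_mul]
  rw [← Finset.sum_mul, ← Finset.mul_sum, sum_inner_sq]
  have e1 : kerR x ε (b - 1) y = kerR x ε (b - 2) y * (‖y - x‖ ^ 2 + ε) := by
    simp only [kerR]
    rw [← Real.rpow_add_one hs.ne']; ring_nf
  rw [e1]
  linear_combination 2 * b * ‖y - x‖ ^ 2 * kerR x ε (b - 2) y * hb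

theorem lapB_kerV (x v : E) {ε : ℝ} (hε : 0 < ε) {b : ℝ}
    (hb : 2 * b = -(Fintype.card ι : ℝ)) (y : E) :
    lapB B (kerV x v ε b) y = 2 * b * ((Fintype.card ι : ℝ) + 2) * ε * kerV x v ε (b - 2) y := by
  have hs : 0 < ‖y - x‖ ^ 2 + ε := by positivity
  have dR := fun c => (contDiff_kerR x hε c).differentiable (by simp : (2 : WithTop ℕ∞) ≠ 0) y
  have dV := fun w c => (contDiff_kerV x w hε c).differentiable (by simp : (2 : WithTop ℕ∞) ≠ 0) y
  have h1 : ∀ i, fderiv ℝ (fun z => fderiv ℝ (kerV x v ε b) z (B i)) y (B i) =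
      4 * b * (⟪v, B i⟫ * ⟪y - x, B i⟫) * kerR x ε (b - 1) y +
        2 * b * ⟪y - x, v⟫ * kerR x ε (b - 1) y +
          4 * b * (b - 1) * ⟪y - x, v⟫ * ⟪y - x, B i⟫ ^ 2 * kerR x ε (b - 2) y := by
    intro i
    rw [show (fun z => fderiv ℝ (kerV x v ε b) z (B i)) = fun z => ⟪v, B i⟫ * kerR x ε b z +
        2 * b * (⟪z - x, v⟫ * kerV x (B i) ε (b - 1) z)
      from funext fun z => fderiv_kerV x v hε b z (B i)]
    have d1 := (hasFDerivAt_inner_sub x v y).differentiableAt.fun_mul (dV (B i) (b - 1))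
    rw [fderiv_fun_add ((dR b).const_mul _) (d1.const_mul _), fderiv_const_mul (dR b),
      fderiv_const_mul d1, fderiv_fun_mul (hasFDerivAt_inner_sub x v y).differentiableAt
        (dV (B i) (b - 1))]
    simp only [ContinuousLinearMap.smul_apply, ContinuousLinearMap.add_apply, smul_eq_mul,
      fderiv_kerR x hε, fderiv_kerV x (B i) hε, hasFDerivAt_inner_sub_apply,
      real_inner_self_eq_norm_sq, B.norm_eq_one]
    rw [show b - 1 - 1 = b - 2 by ring]
    simp only [kerV, kerR]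
    ring
  simp only [lapB, h1, Finset.sum_add_distrib, Finset.sum_const, Finset.card_univ, nsmul_eq_mul]
  rw [← Finset.sum_mul, ← Finset.sum_mul, ← Finset.mul_sum, ← Finset.mul_sum, sum_inner_sq,
    sum_inner_mul, real_inner_comm (y - x) v]
  have e1 : kerR x ε (b - 1) y = kerR x ε (b - 2) y * (‖y - x‖ ^ 2 + ε) := by
    simp only [kerR]
    rw [← Real.rpow_add_one hs.ne']; ring_nf
  rw [e1]
  simp only [kerV]
  rw [show (‖y - x‖ ^ 2 + ε) ^ (b - 2) = kerR x ε (b - 2) y from rfl]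
  linear_combination 2 * b * ⟪y - x, v⟫ * ‖y - x‖ ^ 2 * kerR x ε (b - 2) y * hb

theorem lapB_mul {η k : E → ℝ} (hη : ContDiff ℝ 2 η) (hk : ContDiff ℝ 2 k) (y : E) :
    lapB B (fun z => η z * k z) y = η y * lapB B k y + lapB B η y * k y +
      2 * ∑ i, fderiv ℝ η y (B i) * fderiv ℝ k y (B i) := by
  simp only [lapB, Finset.mul_sum, Finset.sum_mul, ← Finset.sum_add_distrib]
  refine Finset.sum_congr rfl fun i _ => ?_
  have d1 := fun z => hη.differentiable (by simp) z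
  have d2 := fun z => hk.differentiable (by simp) z
  have h1 := fun {g : E → ℝ} (hg : ContDiff ℝ 2 g) => ((hg.fderiv_right (m := 1)
    (by norm_num)).clm_apply (contDiff_const (c := B i))).differentiable one_ne_zero y
  rw [show (fun z => fderiv ℝ (fun w => η w * k w) z (B i)) =
      fun z => η z * fderiv ℝ k z (B i) + k z * fderiv ℝ η z (B i) from funext fun z => by
        rw [fderiv_fun_mul (d1 z) (d2 z)]; simp,
    fderiv_fun_add ((d1 y).fun_mul (h1 hk)) ((d2 y).fun_mul (h1 hη)),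
    fderiv_fun_mul (d1 y) (h1 hk), fderiv_fun_mul (d2 y) (h1 hη)]
  simp
  ring

variable [MeasurableSpace E] [BorelSpace E] {μ : Measure E} [μ.IsAddHaarMeasure]

theorem continuous_lapB {ψ : E → ℝ} (hψ : ContDiff ℝ 2 ψ) : Continuous (lapB B ψ) :=
  continuous_finsetSum _ fun i _ => (((hψ.fderiv_right (m := 1) (by norm_num)).clm_apply
    (contDiff_const (c := B i))).continuous_fderiv one_ne_zero).clm_apply continuous_const

/-- Green's formula against a test function supported off the origin. -/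
theorem green {u f ψ : E → ℝ} (hu : ContDiffOn ℝ 2 u {0}ᶜ)
    (heq : ∀ x, x ≠ 0 → Laplacian.laplacian u x = -(f x)) (hψ : ContDiff ℝ 2 ψ)
    (hψc : HasCompactSupport ψ) (hsub : tsupport ψ ⊆ {0}ᶜ) :
    ∫ y, u y * lapB B ψ y ∂μ = -∫ y, f y * ψ y ∂μ := by
  have hΩ : IsOpen ({0}ᶜ : Set E) := isOpen_compl_singleton
  have hu1 : ∀ i, ContDiffOn ℝ 1 (fun z => fderiv ℝ u z (B i)) {0}ᶜ := fun i =>
    (hu.fderiv_of_isOpen hΩ (by norm_num)).clm_apply contDiffOn_const
  have hψ1 : ∀ i, ContDiff ℝ 1 (fun z => fderiv ℝ ψ z (B i)) := fun i =>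
    (hψ.fderiv_right (by norm_num)).clm_apply contDiff_const
  have hs : ∀ i, tsupport (fun z => fderiv ℝ ψ z (B i)) ⊆ {0}ᶜ := fun i =>
    (tsupport_fderiv_apply_subset ℝ (B i)).trans hsub
  have hc : ∀ i, HasCompactSupport (fun z => fderiv ℝ ψ z (B i)) := fun i =>
    hψc.fderiv_apply (𝕜 := ℝ) (B i)
  have int1 : ∀ i, Integrable (fun y => u y * fderiv ℝ (fun z => fderiv ℝ ψ z (B i)) y (B i)) μ := by
    intro i
    refine (Puncture.continuous_of_supported hΩ (hu.continuousOn.mul (((hψ1 i).continuous_fderiv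
      one_ne_zero).clm_apply continuous_const).continuousOn) ?_).integrable_of_hasCompactSupport
      (((hc i).fderiv_apply (𝕜 := ℝ) (B i)).mul_left)
    exact (tsupport_mul_subset_right).trans ((tsupport_fderiv_apply_subset ℝ (B i)).trans (hs i))
  have int2 : ∀ i, Integrable (fun y => fderiv ℝ (fun z => fderiv ℝ u z (B i)) y (B i) * ψ y) μ := by
    intro i
    refine (Puncture.continuous_of_supported hΩ ((((hu1 i).continuousOn_fderiv_of_isOpen hΩ le_rfl).clm_apply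
      continuousOn_const).mul hψ.continuous.continuousOn) ?_).integrable_of_hasCompactSupport
      hψc.mul_left
    exact tsupport_mul_subset_right.trans hsub
  have step : ∀ i, ∫ y, u y * fderiv ℝ (fun z => fderiv ℝ ψ z (B i)) y (B i) ∂μ =
      ∫ y, fderiv ℝ (fun z => fderiv ℝ u z (B i)) y (B i) * ψ y ∂μ := fun i => by
    rw [ibp_on hΩ (hu.of_le one_le_two) (hψ1 i) (hc i) (hs i) (B i),
      ibp_on hΩ (hu1 i) (hψ.of_le one_le_two) hψc hsub (B i), neg_neg]
  simp only [lapB, Finset.mul_sum]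
  rw [integral_finsetSum _ fun i _ => int1 i, ← integral_neg]
  simp only [step]
  rw [← integral_finsetSum _ fun i _ => int2 i]
  refine integral_congr_ae (Eventually.of_forall fun y => ?_)
  by_cases hy : y ∈ tsupport ψ
  · have hy0 : y ≠ 0 := hsub hy
    have e : ∀ i, fderiv ℝ (fun z => fderiv ℝ u z (B i)) y (B i) =
        fderiv ℝ (fderiv ℝ u) y (B i) (B i) := fun i => by
      rw [fderiv_clm_apply ((hu.fderiv_of_isOpen hΩ (m := 1) (by norm_num)).differentiableOn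
        one_ne_zero |>.differentiableAt (hΩ.mem_nhds hy0)) (differentiableAt_const _)]
      simp
    simp only [← Finset.sum_mul, e, ← Puncture.laplacian_eq_sum_fderiv u y B, heq y hy0]
    ring
  · simp [image_eq_zero_of_notMem_tsupport hy]

/-- The basic inequality: Green's formula against `η k`, estimated. -/
theorem abs_integral_le {A : Set E} (hA : IsCompact A) (hA0 : A ⊆ {0}ᶜ) {η k : E → ℝ}
    (hη : ContDiff ℝ 2 η) (hk : ContDiff ℝ 2 k) (hηA : Function.support η ⊆ A)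
    (hη0 : ∀ y, 0 ≤ η y) (hη1 : ∀ y, η y ≤ 1) {u f P : E → ℝ} (hu : ContDiffOn ℝ 2 u {0}ᶜ)
    (hu0 : ∀ y, 0 ≤ u y) (hf0 : ∀ y, 0 ≤ f y)
    (heq : ∀ x, x ≠ 0 → Laplacian.laplacian u x = -(f x)) (hP : IntegrableOn P A μ)
    (hkP : ∀ᵐ y ∂μ, |k y| * f y ≤ P y) {K : ℝ}
    (hK : ∀ y ∈ A, |lapB B η y * k y + 2 * ∑ i, fderiv ℝ η y (B i) * fderiv ℝ k y (B i)| ≤ K)
    (hfc : Continuous f) :
    |∫ y, η y * u y * lapB B k y ∂μ| ≤ ∫ y in A, P y ∂μ + K * ∫ y in A, u y ∂μ := by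
  have hψ : ContDiff ℝ 2 fun y => η y * k y := hη.mul hk
  have hηc : HasCompactSupport η := HasCompactSupport.intro hA fun y hy =>
    Function.notMem_support.1 fun h => hy (hηA h)
  have hηs : tsupport η ⊆ A := closure_minimal hηA hA.isClosed
  have hg := green (μ := μ) B hu heq hψ hηc.mul_right (tsupport_mul_subset_left.trans (hηs.trans hA0))
  set W : E → ℝ := fun y => lapB B η y * k y + 2 * ∑ i, fderiv ℝ η y (B i) * fderiv ℝ k y (B i)
    with hW
  have hWc : Continuous W :=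
    ((continuous_lapB B hη).mul hk.continuous).add (continuous_const.mul
      (continuous_finsetSum _ fun i _ => ((hη.continuous_fderiv (by simp)).clm_apply
        continuous_const).mul ((hk.continuous_fderiv (by simp)).clm_apply continuous_const)))
  have hW0 : ∀ y ∉ A, W y = 0 := fun y hy => by
    have h0 : η =ᶠ[𝓝 y] 0 := notMem_tsupport_iff_eventuallyEq.1 fun h => hy (hηs h)
    have h1 : ∀ e, fderiv ℝ η y e = 0 := fun e => by rw [h0.fderiv_eq]; simp
    have h2 : ∀ e, (fun z => fderiv ℝ η z e) =ᶠ[𝓝 y] 0 := fun e => by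
      filter_upwards [h0.fderiv (𝕜 := ℝ)] with z hz; simp [hz]
    have h3 : lapB B η y = 0 := Finset.sum_eq_zero fun i _ => by rw [(h2 (B i)).fderiv_eq]; simp
    simp [W, h1, h3]
  have hη0' : ∀ y ∉ A, η y = 0 := fun y hy => Function.notMem_support.1 fun h => hy (hηA h)
  have huA : ContinuousOn u A := hu.continuousOn.mono hA0
  have hAm := hA.isClosed.measurableSet
  have i1 : IntegrableOn (fun y => u y * W y) A μ :=
    (huA.mul hWc.continuousOn).integrableOn_compact hA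
  have i2 : IntegrableOn (fun y => η y * u y * lapB B k y) A μ :=
    ((hη.continuous.continuousOn.mul huA).mul
      (continuous_lapB B hk).continuousOn).integrableOn_compact hA
  have i3 : IntegrableOn (fun y => f y * (η y * k y)) A μ :=
    (hfc.mul hψ.continuous).continuousOn.integrableOn_compact hA
  simp only [lapB_mul B hη hk] at hg
  rw [← setIntegral_eq_integral_of_forall_compl_eq_zero (s := A) (fun y hy => by simp [hη0' y hy])]
  rw [← setIntegral_eq_integral_of_forall_compl_eq_zero (s := A)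
      (f := fun y => f y * (η y * k y)) (fun y hy => by simp [hη0' y hy]),
    ← setIntegral_eq_integral_of_forall_compl_eq_zero (s := A) (fun y hy => by
      have := hW0 y hy
      simp only [W] at this
      rw [hη0' y hy, zero_mul, zero_add, this, mul_zero])] at hg
  have e : ∫ y in A, η y * u y * lapB B k y ∂μ =
      -∫ y in A, f y * (η y * k y) ∂μ - ∫ y in A, u y * W y ∂μ := by
    rw [eq_sub_iff_add_eq, ← integral_add i2 i1, ← hg]
    exact integral_congr_ae (Eventually.of_forall fun y => by simp only [W]; ring)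
  rw [e, ← neg_add', abs_neg, ← integral_const_mul]
  refine (abs_add_le _ _).trans (add_le_add ?_ ?_)
  · refine (Real.norm_eq_abs _).symm.trans_le (norm_integral_le_of_norm_le hP ?_)
    filter_upwards [ae_restrict_of_ae hkP] with y hy
    rw [Real.norm_eq_abs, abs_mul, abs_mul, abs_of_nonneg (hf0 y), abs_of_nonneg (hη0 y)]
    calc f y * (η y * |k y|) ≤ f y * (1 * |k y|) := by
          gcongr
          · exact hf0 y
          · exact hη1 y
      _ = |k y| * f y := by ring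
      _ ≤ P y := hy
  · refine (Real.norm_eq_abs _).symm.trans_le
      (norm_integral_le_of_norm_le (huA.integrableOn_compact hA |>.const_mul K) ?_)
    filter_upwards [ae_restrict_mem hAm] with y hy
    rw [Real.norm_eq_abs, abs_mul, abs_of_nonneg (hu0 y), mul_comm]
    exact mul_le_mul_of_nonneg_right (hK y hy) (hu0 y)

theorem integrable_bump (d : ℝ) (hd : (Module.finrank ℝ E : ℝ) < d) :
    Integrable (fun z : E => (1 + ‖z‖ ^ 2) ^ (-d / 2)) μ :=
  integrable_rpow_neg_one_add_norm_sq hd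

/-- The total mass of the approximate identity. -/
def bumpMass (μ : Measure E) : ℝ :=
  ∫ z, (1 + ‖z‖ ^ 2) ^ (-((Module.finrank ℝ E : ℝ) + 2) / 2) ∂μ

theorem bumpMass_pos : 0 < bumpMass μ := by
  refine (integral_pos_iff_support_of_nonneg (fun z => by positivity)
    (integrable_bump _ (by linarith))).2 ?_
  rw [show (Function.support fun z : E =>
      (1 + ‖z‖ ^ 2) ^ (-((Module.finrank ℝ E : ℝ) + 2) / 2)) = univ from
    eq_univ_of_forall fun z => (by positivity : (0 : ℝ) < _).ne']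
  exact (Measure.measure_univ_pos.2 (NeZero.ne μ))

/-- The regularised Dirac mass. -/
theorem tendsto_approx (hn : 1 ≤ Module.finrank ℝ E) {g : E → ℝ} (hg : Continuous g)
    (hgc : HasCompactSupport g) (x : E) :
    Tendsto (fun c : ℝ => ∫ y, (c⁻¹) ^ 2 *
      kerR x ((c⁻¹) ^ 2) (-((Module.finrank ℝ E : ℝ) + 2) / 2) y * g y ∂μ) atTop
      (𝓝 (bumpMass μ * g x)) := by
  set d : ℝ := (Module.finrank ℝ E : ℝ) + 2 with hd
  set φ : E → ℝ := fun z => (1 + ‖z‖ ^ 2) ^ (-d / 2) / bumpMass μ with hφ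
  have hM := bumpMass_pos (μ := μ)
  have h1 : ∫ z, φ z ∂μ = 1 := by
    rw [hφ, integral_div, ← bumpMass]; exact div_self hM.ne'
  have h2 : Tendsto (fun z => ‖z‖ ^ Module.finrank ℝ E * φ z) (Bornology.cobounded E) (𝓝 0) := by
    have hlim : Tendsto (fun z : E => (‖z‖ ^ 2)⁻¹ / bumpMass μ) (Bornology.cobounded E) (𝓝 0) := by
      simpa using ((tendsto_inv_atTop_zero.comp ((tendsto_pow_atTop two_ne_zero).comp
        tendsto_norm_cobounded_atTop)).div_const (bumpMass μ))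
    refine squeeze_zero' (Eventually.of_forall fun z => by positivity) ?_ hlim
    filter_upwards [tendsto_norm_cobounded_atTop.eventually (eventually_gt_atTop 0)] with z hz
    rw [hφ, mul_div_assoc']
    gcongr
    have hb : (1 + ‖z‖ ^ 2) ^ (-d / 2) ≤ (‖z‖ ^ 2) ^ (-d / 2) :=
      Real.rpow_le_rpow_of_nonpos (by positivity) (by linarith) (by rw [hd]; linarith)
    refine (mul_le_mul_of_nonneg_left hb (by positivity)).trans (le_of_eq ?_)
    rw [← Real.rpow_natCast ‖z‖ 2, ← Real.rpow_natCast ‖z‖ (Module.finrank ℝ E),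
      ← Real.rpow_mul hz.le, ← Real.rpow_add hz, ← Real.rpow_neg hz.le]
    congr 1
    push_cast; ring
  have := (tendsto_integral_comp_smul_smul_of_integrable' (μ := μ) (φ := φ)
    (fun z => by positivity) h1 h2 (g := g) (x₀ := x)
    (hg.integrable_of_hasCompactSupport hgc) hg.continuousAt).const_mul (bumpMass μ)
  refine this.congr' ?_
  filter_upwards [eventually_gt_atTop 0] with c hc
  rw [← integral_const_mul]
  refine integral_congr_ae (Eventually.of_forall fun y => ?_)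
  have e : c ^ Module.finrank ℝ E * (1 + ‖c • (x - y)‖ ^ 2) ^ (-d / 2) =
      (c⁻¹) ^ 2 * kerR x ((c⁻¹) ^ 2) (-d / 2) y := by
    rw [kerR, norm_smul, Real.norm_eq_abs, abs_of_pos hc, norm_sub_rev x y,
      show (1 + (c * ‖y - x‖) ^ 2) = c ^ 2 * (‖y - x‖ ^ 2 + (c⁻¹) ^ 2) by field_simp; ring,
      Real.mul_rpow (by positivity) (by positivity), ← mul_assoc]
    congr 1
    rw [← Real.rpow_natCast c 2, ← Real.rpow_mul hc.le, ← Real.rpow_natCast c, ← Real.rpow_add hc,
      inv_pow, ← Real.rpow_natCast c 2, ← Real.rpow_neg hc.le]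
    congr 1
    rw [hd]; push_cast; ring
  simp only [hφ, smul_eq_mul]
  rw [← e]
  field_simp

/-- A smooth step has bounded first and second derivatives. -/
theorem exists_step_bound :
    ∃ C : ℝ, 1 ≤ C ∧ ∀ t, |deriv Real.smoothTransition t| ≤ C ∧
      |deriv (deriv Real.smoothTransition) t| ≤ C := by
  have h0 : ∀ t ∉ Icc (0 : ℝ) 1, deriv Real.smoothTransition t = 0 := by
    intro t ht
    rw [mem_Icc, not_and_or, not_le, not_le] at ht
    rcases ht with ht | ht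
    · have : Real.smoothTransition =ᶠ[𝓝 t] fun _ => 0 := by
        filter_upwards [Iio_mem_nhds ht] with s hs using
          Real.smoothTransition.zero_of_nonpos hs.le
      rw [this.deriv_eq]; simp
    · have : Real.smoothTransition =ᶠ[𝓝 t] fun _ => 1 := by
        filter_upwards [Ioi_mem_nhds ht] with s hs using
          Real.smoothTransition.one_of_one_le hs.le
      rw [this.deriv_eq]; simp
  have hS : ContDiff ℝ 2 Real.smoothTransition := Real.smoothTransition.contDiff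
  have hd : ContDiff ℝ 1 (deriv Real.smoothTransition) := hS.deriv' (n := 1)
  have hc : HasCompactSupport (deriv Real.smoothTransition) :=
    HasCompactSupport.intro isCompact_Icc h0
  obtain ⟨C₁, h₁⟩ := hc.exists_bound_of_continuous hd.continuous
  obtain ⟨C₂, h₂⟩ := hc.deriv.exists_bound_of_continuous (hd.continuous_deriv le_rfl)
  exact ⟨max 1 (max C₁ C₂), le_max_left _ _, fun t =>
    ⟨(h₁ t).trans (le_trans (le_max_left _ _) (le_max_right _ _)),
      (h₂ t).trans (le_trans (le_max_right _ _) (le_max_right _ _))⟩⟩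

/-- A radial cut-off with derivative bounds. -/
theorem exists_cut : ∃ C : ℝ, 0 ≤ C ∧ ∀ r h : ℝ, 1 ≤ r → 0 < h → r + h ≤ 4 →
    ∃ η : E → ℝ, ContDiff ℝ 2 η ∧ (∀ y, 0 ≤ η y) ∧ (∀ y, η y ≤ 1) ∧
      Function.support η ⊆ {y | 1 / 2 ≤ ‖y‖ ∧ ‖y‖ ≤ r + h} ∧
      (∀ y, 3 / 4 ≤ ‖y‖ → ‖y‖ ≤ r + 3 * h / 4 → η y = 1) ∧
      (∀ y, ‖y‖ ≤ 4 → ∀ i, |fderiv ℝ η y (B i)| ≤ C * (12 / h)) ∧
      (∀ y, ‖y‖ ≤ 4 → |lapB B η y| ≤ C * (12 / h) ^ 2) := by
  obtain ⟨S, hS1, hS⟩ := exists_step_bound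
  refine ⟨(Fintype.card ι + 1) * (2000 * S ^ 2), by positivity, fun r h hr hh hrh => ?_⟩
  set T : ℝ := (r + h) ^ 2 with hT
  set L : ℝ := h / 2 with hL
  have hL0 : 0 < L := by positivity
  set s1 : ℝ → ℝ := fun s => Real.smoothTransition (4 * s - 1) with hs1
  set s2 : ℝ → ℝ := fun s => Real.smoothTransition ((T - s) / L) with hs2
  set φ : ℝ → ℝ := fun s => s1 s * s2 s with hφ
  have hST : Differentiable ℝ Real.smoothTransition :=
    (Real.smoothTransition.contDiff (n := 1)).differentiable one_ne_zero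
  have hdS : Differentiable ℝ (deriv Real.smoothTransition) :=
    ((Real.smoothTransition.contDiff (n := 2)).deriv' (n := 1)).differentiable one_ne_zero
  have d1 : ∀ s, HasDerivAt (fun s : ℝ => 4 * s - 1) 4 s := fun s => by
    simpa using ((hasDerivAt_id s).const_mul (4 : ℝ)).sub_const 1
  have d2 : ∀ s, HasDerivAt (fun s : ℝ => (T - s) / L) (-1 / L) s := fun s => by
    simpa using ((hasDerivAt_id s).const_sub T).div_const L
  set φ1 : ℝ → ℝ := fun s => deriv Real.smoothTransition (4 * s - 1) * 4 * s2 s +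
    s1 s * (deriv Real.smoothTransition ((T - s) / L) * (-1 / L)) with hφ1
  have e1 : ∀ s, HasDerivAt φ (φ1 s) s := fun s =>
    ((hST _).hasDerivAt.comp s (d1 s)).fun_mul ((hST _).hasDerivAt.comp s (d2 s))
  set φ2 : ℝ → ℝ := fun s =>
    deriv (deriv Real.smoothTransition) (4 * s - 1) * 4 * 4 * s2 s +
      deriv Real.smoothTransition (4 * s - 1) * 4 *
        (deriv Real.smoothTransition ((T - s) / L) * (-1 / L)) +
      (deriv Real.smoothTransition (4 * s - 1) * 4 *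
        (deriv Real.smoothTransition ((T - s) / L) * (-1 / L)) +
      s1 s * (deriv (deriv Real.smoothTransition) ((T - s) / L) * (-1 / L) * (-1 / L))) with hφ2
  have e2 : ∀ s, HasDerivAt φ1 (φ2 s) s := fun s =>
    ((((hdS _).hasDerivAt.comp s (d1 s)).mul_const 4).fun_mul
      ((hST _).hasDerivAt.comp s (d2 s))).fun_add (((hST _).hasDerivAt.comp s (d1 s)).fun_mul
      (((hdS _).hasDerivAt.comp s (d2 s)).mul_const (-1 / L)))
  set D := 12 / h with hD
  have hD1 : 4 ≤ D := by rw [hD, le_div_iff₀ hh]; linarith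
  have hLD : |(-1 / L)| ≤ D := by
    rw [abs_div, abs_neg, abs_one, abs_of_pos hL0, hL, one_div_div, hD]
    gcongr; norm_num
  have bS : ∀ t, |Real.smoothTransition t| ≤ 1 := fun t => by
    rw [abs_of_nonneg (Real.smoothTransition.nonneg t)]; exact Real.smoothTransition.le_one t
  have hφ1b : ∀ s, |φ1 s| ≤ 5 * S * D := fun s => by
    refine (abs_add_le _ _).trans ?_
    simp only [abs_mul, abs_of_pos (show (0 : ℝ) < 4 by norm_num), hs1, hs2]
    calc |deriv Real.smoothTransition (4 * s - 1)| * 4 * |Real.smoothTransition ((T - s) / L)| +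
          |Real.smoothTransition (4 * s - 1)| *
            (|deriv Real.smoothTransition ((T - s) / L)| * |(-1 / L)|)
        ≤ S * 4 * 1 + 1 * (S * D) := by gcongr <;> first | exact bS _ | exact (hS _).1 | exact hLD
      _ ≤ 5 * S * D := by nlinarith
  have hφ2b : ∀ s, |φ2 s| ≤ 25 * S ^ 2 * D ^ 2 := fun s => by
    refine (abs_add_le _ _).trans ((add_le_add (abs_add_le _ _) (abs_add_le _ _)).trans ?_)
    simp only [abs_mul, abs_of_pos (show (0 : ℝ) < 4 by norm_num), hs1, hs2]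
    have b1 := (hS (4 * s - 1)).1
    have b2 := (hS (4 * s - 1)).2
    have b3 := (hS ((T - s) / L)).1
    have b4 := (hS ((T - s) / L)).2
    have b5 := bS (4 * s - 1)
    have b6 := bS ((T - s) / L)
    refine (add_le_add (add_le_add (b := S * 4 * 4 * 1) (d := S * 4 * (S * D)) ?_ ?_)
      (add_le_add (b := S * 4 * (S * D)) (d := 1 * (S * D * D)) ?_ ?_)).trans ?_
    · gcongr
    · gcongr
    · gcongr
    · gcongr
    · nlinarith [mul_le_mul hS1 hS1 zero_le_one (by linarith), mul_le_mul_of_nonneg_left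
        (show (1 : ℝ) ≤ D by linarith) (sq_nonneg S),
        mul_le_mul_of_nonneg_left (show D ≤ D ^ 2 by nlinarith) (sq_nonneg S)]
  set η : E → ℝ := fun y => φ (‖y‖ ^ 2) with hη
  have hd : ∀ y e, fderiv ℝ η y e = φ1 (‖y‖ ^ 2) * (2 * ⟪y, e⟫) := fun y e => by
    have h1 : HasFDerivAt η (φ1 (‖y‖ ^ 2) • (2 • innerSL ℝ y)) y :=
      (e1 _).comp_hasFDerivAt y (hasStrictFDerivAt_norm_sq y).hasFDerivAt
    rw [h1.fderiv]
    simp
  have hd2 : ∀ y i, fderiv ℝ (fun z => fderiv ℝ η z (B i)) y (B i) =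
      φ2 (‖y‖ ^ 2) * (2 * ⟪y, B i⟫) ^ 2 + φ1 (‖y‖ ^ 2) * 2 := fun y i => by
    rw [show (fun z => fderiv ℝ η z (B i)) = fun z => φ1 (‖z‖ ^ 2) * (2 * ⟪z, B i⟫) from
      funext fun z => hd z (B i)]
    have h1 : HasFDerivAt (fun z : E => φ1 (‖z‖ ^ 2)) (φ2 (‖y‖ ^ 2) • (2 • innerSL ℝ y)) y :=
      (e2 _).comp_hasFDerivAt y (hasStrictFDerivAt_norm_sq y).hasFDerivAt
    have h2 := (hasFDerivAt_inner_sub (0 : E) (B i) y).const_mul 2
    simp only [sub_zero] at h2
    rw [(h1.fun_mul h2).fderiv]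
    simp [real_inner_comm (B i)]
    ring
  refine ⟨η, (((Real.smoothTransition.contDiff.comp ((contDiff_const.mul contDiff_id).sub
      contDiff_const)).mul (Real.smoothTransition.contDiff.comp ((contDiff_const.sub
        contDiff_id).div_const L)))).comp (contDiff_norm_sq ℝ),
    fun y => mul_nonneg (Real.smoothTransition.nonneg _) (Real.smoothTransition.nonneg _),
    fun y => mul_le_one₀ (Real.smoothTransition.le_one _) (Real.smoothTransition.nonneg _)
      (Real.smoothTransition.le_one _), fun y hy => ?_, fun y h1 h2 => ?_, fun y hy i => ?_,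
    fun y hy => ?_⟩
  · simp only [η, φ, Function.mem_support, mul_ne_zero_iff] at hy
    constructor
    · by_contra hc
      push Not at hc
      exact hy.1 (Real.smoothTransition.zero_of_nonpos
        (by linarith [pow_le_pow_left₀ (norm_nonneg y) hc.le 2]))
    · by_contra hc
      push Not at hc
      refine hy.2 (Real.smoothTransition.zero_of_nonpos (div_nonpos_of_nonpos_of_nonneg ?_ hL0.le))
      rw [hT]
      linarith [pow_le_pow_left₀ (by linarith) hc.le 2]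
  · simp only [η, φ, hs1, hs2]
    rw [Real.smoothTransition.one_of_one_le (by nlinarith),
      Real.smoothTransition.one_of_one_le, one_mul]
    rw [le_div_iff₀ hL0, hT, hL]
    nlinarith [pow_le_pow_left₀ (norm_nonneg y) h2 2]
  · rw [hd, abs_mul, abs_mul, abs_of_pos (show (0 : ℝ) < 2 by norm_num)]
    have hi := abs_real_inner_le_norm y (B i)
    rw [B.norm_eq_one, mul_one] at hi
    calc |φ1 (‖y‖ ^ 2)| * (2 * |⟪y, B i⟫|) ≤ 5 * S * D * (2 * 4) := by
          gcongr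
          · exact hφ1b _
          · exact hi.trans hy
      _ ≤ (Fintype.card ι + 1) * (2000 * S ^ 2) * D := by
          have h1 : S * D ≤ S ^ 2 * D := by
            rw [sq]; exact mul_le_mul_of_nonneg_right (le_mul_of_one_le_left (by linarith) hS1) (by linarith)
          have h2 : 0 ≤ (Fintype.card ι : ℝ) * (S ^ 2 * D) := by positivity
          have h3 : 0 ≤ S ^ 2 * D := by positivity
          linarith
  · simp only [lapB, hd2]
    refine (Finset.abs_sum_le_sum_abs _ _).trans ?_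
    calc ∑ i, |φ2 (‖y‖ ^ 2) * (2 * ⟪y, B i⟫) ^ 2 + φ1 (‖y‖ ^ 2) * 2|
        ≤ ∑ _i : ι, 2000 * S ^ 2 * D ^ 2 := by
          refine Finset.sum_le_sum fun i _ => (abs_add_le _ _).trans ?_
          rw [abs_mul, abs_mul, abs_pow, abs_mul, abs_of_pos (show (0 : ℝ) < 2 by norm_num)]
          have hi := abs_real_inner_le_norm y (B i)
          rw [B.norm_eq_one, mul_one] at hi
          calc |φ2 (‖y‖ ^ 2)| * (2 * |⟪y, B i⟫|) ^ 2 + |φ1 (‖y‖ ^ 2)| * 2
              ≤ 25 * S ^ 2 * D ^ 2 * (2 * 4) ^ 2 + 5 * S * D * 2 := by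
                gcongr
                · exact hφ2b _
                · exact hi.trans hy
                · exact hφ1b _
            _ ≤ 2000 * S ^ 2 * D ^ 2 := by
                have h1 : 1 ≤ S * D := one_le_mul_of_one_le_of_one_le hS1 (by linarith)
                have h2 : S * D ≤ (S * D) * (S * D) := le_mul_of_one_le_left (by positivity) h1
                have h3 : 0 ≤ S ^ 2 * D ^ 2 := by positivity
                linarith
      _ = (Fintype.card ι : ℝ) * (2000 * S ^ 2) * D ^ 2 := by simp; ring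
      _ ≤ _ := by
          have : 0 ≤ 2000 * S ^ 2 * D ^ 2 := by positivity
          linarith

theorem dist_lower {r h : ℝ} (hr : 1 ≤ r) (hh : 0 < h) (hrh : r + h ≤ 4) {x y : E}
    (hx1 : 1 ≤ ‖x‖) (hx2 : ‖x‖ ≤ r + h / 2) (hy : ¬ (3 / 4 < ‖y‖ ∧ ‖y‖ < r + 3 * h / 4)) :
    h / 12 ≤ ‖y - x‖ := by
  rw [not_and_or, not_lt, not_lt] at hy
  rcases hy with hy | hy
  · linarith [norm_sub_norm_le x y, norm_sub_rev x y]
  · linarith [norm_sub_norm_le y x]

omit [FiniteDimensional ℝ E] in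
theorem ker_bound (x : E) {ε b : ℝ} (hε : 0 ≤ ε) (hb : b ≤ 0) {m : ℝ} (hm : 2 * b = -m) {y : E}
    (hy : y ≠ x) : (‖y - x‖ ^ 2 + ε) ^ b ≤ ‖x - y‖ ^ (-m) := by
  have h0 : 0 < ‖y - x‖ := norm_pos_iff.2 (sub_ne_zero.2 hy)
  calc (‖y - x‖ ^ 2 + ε) ^ b ≤ (‖y - x‖ ^ 2) ^ b :=
        Real.rpow_le_rpow_of_nonpos (by positivity) (by linarith) hb
    _ = ‖x - y‖ ^ (-m) := by
        rw [← Real.rpow_natCast ‖y - x‖ 2, ← Real.rpow_mul h0.le, norm_sub_rev, ← hm]; norm_num

theorem integrableOn_pot (hn : 1 ≤ Module.finrank ℝ E) {A : Set E} (hA : IsCompact A) {f : E → ℝ}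
    (hf : Continuous f) (x : E) {m : ℝ} (hm : m < Module.finrank ℝ E) :
    IntegrableOn (fun y => ‖x - y‖ ^ (-m) * f y) A μ := by
  obtain ⟨R, hR⟩ := hA.isBounded.subset_ball x
  refine IntegrableOn.mul_continuousOn ?_ hf.continuousOn hA
  refine IntegrableOn.mono_set ?_ hR
  haveI : Nontrivial E := Module.nontrivial_of_finrank_pos (R := ℝ) (by omega)
  have key : IntegrableOn (fun z : E => ‖z‖ ^ (-m)) (ball 0 R) μ := by
    rcases le_or_gt R 0 with hR0 | hR0
    · simp [ball_eq_empty.2 hR0]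
    rw [integrableOn_fun_norm_addHaar μ (f := fun r : ℝ => r ^ (-m))]
    have h1 := (intervalIntegral.intervalIntegrable_rpow' (a := 0) (b := R)
      (r := ((Module.finrank ℝ E - 1 : ℕ) : ℝ) + -m) (by
        rw [Nat.cast_pred (by omega)]; linarith)).1
    refine (h1.mono_set Ioo_subset_Ioc_self).congr_fun (fun r hr => ?_) measurableSet_Ioo
    change r ^ (((Module.finrank ℝ E - 1 : ℕ) : ℝ) + -m) = r ^ (Module.finrank ℝ E - 1) * r ^ (-m)
    rw [Real.rpow_add hr.1, Real.rpow_natCast]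
  have := (measurePreserving_sub_right μ x).integrableOn_comp_preimage
    (Homeomorph.subRight x).measurableEmbedding (f := fun z : E => ‖z‖ ^ (-m)) (s := ball 0 R)
  rw [show (fun y => y - x) ⁻¹' ball 0 R = ball x R by ext; simp [dist_eq_norm]] at this
  exact ((this.2 key).congr_fun (fun y _ => by simp [norm_sub_rev]) measurableSet_ball)

omit [FiniteDimensional ℝ E] [MeasurableSpace E] [BorelSpace E] in
/-- The kernel away from `x`. -/
theorem ker_far {x : E} {h : ℝ} (hh : 0 < h) (hD1 : 1 ≤ 12 / h) {b : ℝ} (hb : b ≤ 0) (j : ℕ)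
    (hj : -2 * b ≤ j) {ε : ℝ} (hε : 0 ≤ ε) {y : E} (hy : h / 12 ≤ ‖y - x‖) :
    (‖y - x‖ ^ 2 + ε) ^ b ≤ (12 / h) ^ j := by
  have h0 : 0 < h / 12 := by positivity
  calc (‖y - x‖ ^ 2 + ε) ^ b ≤ ((h / 12) ^ 2) ^ b :=
        Real.rpow_le_rpow_of_nonpos (by positivity)
          (by linarith [pow_le_pow_left₀ h0.le hy 2]) hb
    _ = (12 / h) ^ (-2 * b) := by
        rw [← Real.rpow_natCast (h / 12) 2, ← Real.rpow_mul h0.le,
          show h / 12 = (12 / h)⁻¹ by rw [inv_div], Real.inv_rpow (by positivity),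
          ← Real.rpow_neg (by positivity)]
        push_cast; ring_nf
    _ ≤ (12 / h) ^ j := by rw [← Real.rpow_natCast]; exact Real.rpow_le_rpow_of_exponent_le hD1 hj

omit [FiniteDimensional ℝ E] [MeasurableSpace E] [BorelSpace E] in
theorem abs_inner_mul_le (x y e v : E) :
    |⟪y - x, v⟫ * ⟪y - x, e⟫| ≤ ‖v‖ * ‖e‖ * ‖y - x‖ ^ 2 := by
  rw [abs_mul]
  calc |⟪y - x, v⟫| * |⟪y - x, e⟫| ≤ (‖y - x‖ * ‖v‖) * (‖y - x‖ * ‖e‖) :=
        mul_le_mul (abs_real_inner_le_norm _ _) (abs_real_inner_le_norm _ _) (abs_nonneg _)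
          (by positivity)
    _ = _ := by ring

/-- The estimate of Green's formula against `η k`, for kernels `k` bounded away from `x`. -/
def CutTerm (μ : Measure E) {d : ℕ} (B : OrthonormalBasis (Fin d) ℝ E) (A : Set E)
    (f w : E → ℝ) (x : E) (h Cc Iu : ℝ) : Prop :=
  ∀ k : E → ℝ, ContDiff ℝ 2 k → ∀ {P : E → ℝ}, IntegrableOn P A μ →
    (∀ᵐ y ∂μ, |k y| * f y ≤ P y) → ∀ S : ℝ, 0 ≤ S →
    (∀ y, h / 12 ≤ ‖y - x‖ → |k y| ≤ S * (12 / h) ^ (d - 1) ∧
      ∀ i, |fderiv ℝ k y (B i)| ≤ S * (12 / h) ^ d) →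
    |∫ y, w y * lapB B k y ∂μ| ≤
      ∫ y in A, P y ∂μ + Cc * S * (1 + 2 * (d : ℝ)) * (12 / h) ^ (d + 1) * Iu

theorem cutTerm {d : ℕ} (B : OrthonormalBasis (Fin d) ℝ E) (hd3 : 3 ≤ d) {u f η : E → ℝ}
    (hu0 : ∀ y, 0 ≤ u y) (hf0 : ∀ y, 0 ≤ f y) (hfc : Continuous f) (hu : ContDiffOn ℝ 2 u {0}ᶜ)
    (heq : ∀ x, x ≠ 0 → Laplacian.laplacian u x = -(f x)) {r h Cc : ℝ} (hr : 1 ≤ r) (hh : 0 < h)
    (hrh : r + h ≤ 4) (hCc : 0 ≤ Cc) {x : E} (hx1 : 1 ≤ ‖x‖) (hx2 : ‖x‖ ≤ r + h / 2)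
    (hAc : IsCompact {y : E | 1 / 2 ≤ ‖y‖ ∧ ‖y‖ ≤ r + h})
    (hA0 : {y : E | 1 / 2 ≤ ‖y‖ ∧ ‖y‖ ≤ r + h} ⊆ {0}ᶜ)
    (hη : ContDiff ℝ 2 η) (hη0 : ∀ y, 0 ≤ η y) (hη1 : ∀ y, η y ≤ 1)
    (hηA : Function.support η ⊆ {y | 1 / 2 ≤ ‖y‖ ∧ ‖y‖ ≤ r + h})
    (hηone : ∀ y, 3 / 4 ≤ ‖y‖ → ‖y‖ ≤ r + 3 * h / 4 → η y = 1)
    (hηd : ∀ y, ‖y‖ ≤ 4 → ∀ i, |fderiv ℝ η y (B i)| ≤ Cc * (12 / h))
    (hηL : ∀ y, ‖y‖ ≤ 4 → |lapB B η y| ≤ Cc * (12 / h) ^ 2) :
    CutTerm μ B {y : E | 1 / 2 ≤ ‖y‖ ∧ ‖y‖ ≤ r + h} f (fun y => η y * u y) x h Cc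
      (∫ y in {y : E | 1 / 2 ≤ ‖y‖ ∧ ‖y‖ ≤ r + h}, u y ∂μ) := by
  set D := 12 / h with hD
  intro k hk P hP hkP S hS0 hkS
  refine abs_integral_le B hAc hA0 hη hk hηA hη0 hη1 hu hu0 hf0 heq hP hkP (fun y hy => ?_) hfc
  by_cases hy' : 3 / 4 < ‖y‖ ∧ ‖y‖ < r + 3 * h / 4
  · have ho : η =ᶠ[𝓝 y] fun _ => (1 : ℝ) := by
      filter_upwards [((isOpen_lt continuous_const continuous_norm).inter
        (isOpen_lt continuous_norm continuous_const)).mem_nhds hy'] with z hz
      exact hηone z hz.1.le hz.2.le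
    have h1 : ∀ e, fderiv ℝ η y e = 0 := fun e => by rw [ho.fderiv_eq]; simp
    have h2 : ∀ e, (fun z => fderiv ℝ η z e) =ᶠ[𝓝 y] fun _ => (0 : ℝ) := fun e => by
      filter_upwards [ho.fderiv (𝕜 := ℝ)] with z hz; simp [hz]
    have h3 : lapB B η y = 0 := Finset.sum_eq_zero fun i _ => by rw [(h2 (B i)).fderiv_eq]; simp
    simp only [h1, h3, zero_mul, Finset.sum_const_zero, mul_zero, add_zero, abs_zero]
    positivity
  · have hdist := dist_lower hr hh hrh hx1 hx2 hy'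
    obtain ⟨k0, k1⟩ := hkS y hdist
    have hy4 : ‖y‖ ≤ 4 := hy.2.trans hrh
    refine (abs_add_le _ _).trans ?_
    rw [abs_mul, abs_mul, abs_of_pos (show (0 : ℝ) < 2 by norm_num)]
    calc |lapB B η y| * |k y| + 2 * |∑ i, fderiv ℝ η y (B i) * fderiv ℝ k y (B i)|
        ≤ Cc * D ^ 2 * (S * D ^ (d - 1)) + 2 * ∑ _i : Fin d, Cc * D * (S * D ^ d) := by
          gcongr
          · exact hηL y hy4
          · refine (Finset.abs_sum_le_sum_abs _ _).trans (Finset.sum_le_sum fun i _ => ?_)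
            rw [abs_mul]
            exact mul_le_mul (hηd y hy4 i) (k1 i) (abs_nonneg _) (by positivity)
      _ = Cc * S * (1 + 2 * (d : ℝ)) * D ^ (d + 1) := by
          simp only [Finset.sum_const, Finset.card_univ, Fintype.card_fin, nsmul_eq_mul]
          obtain ⟨j, hj⟩ : ∃ j, d = j + 1 := ⟨d - 1, by omega⟩
          rw [hj, Nat.add_sub_cancel]
          push_cast
          ring

section limits

variable (hn : 3 ≤ Module.finrank ℝ E) (B₀ : OrthonormalBasis (Fin (Module.finrank ℝ E)) ℝ E)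
  {u f w : E → ℝ} {A : Set E} {x : E} {h Cc Iu : ℝ}

include hn in
/-- The value at `x`. -/
theorem value_bound (key : CutTerm μ B₀ A f w x h Cc Iu) (hh : 0 < h) (hD1 : 1 ≤ 12 / h)
    (hAc : IsCompact A) (hfc : Continuous f) (hf0 : ∀ y, 0 ≤ f y) (hu0 : ∀ y, 0 ≤ u y)
    (hw1 : ContDiff ℝ 1 w) (hwcs : HasCompactSupport w) (hwx : w x = u x) :
    (Module.finrank ℝ E : ℝ) * ((Module.finrank ℝ E : ℝ) - 2) * bumpMass μ * u x ≤
      (∫ y in A, ‖x - y‖ ^ (2 - (Module.finrank ℝ E : ℝ)) * f y ∂μ) +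
        Cc * (Module.finrank ℝ E : ℝ) * (1 + 2 * (Module.finrank ℝ E : ℝ)) *
          (12 / h) ^ (Module.finrank ℝ E + 1) * Iu := by
  set N : ℝ := ((Module.finrank ℝ E) : ℝ) with hN
  have hcard : (Fintype.card (Fin (Module.finrank ℝ E)) : ℝ) = N := by rw [Fintype.card_fin]
  have hN3 : 3 ≤ N := by rw [hN]; exact_mod_cast hn
  have hM := bumpMass_pos (μ := μ)
  have hker : ∀ (ε b : ℝ), 0 < ε → ∀ y, 0 ≤ kerR x ε b y := fun ε b hε y =>
    Real.rpow_nonneg (by positivity) _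
  have hxy : ∀ᵐ y ∂μ, y ≠ x := by
    haveI : Nontrivial E := Module.nontrivial_of_finrank_pos (R := ℝ) (by omega)
    filter_upwards [compl_mem_ae_iff.2 (measure_singleton x)] with y hy using hy
  set D := 12 / h with hD
  set P₀ : E → ℝ := fun y => ‖x - y‖ ^ (2 - N) * f y with hP₀
  have hP₀i : IntegrableOn P₀ A μ := by
    have := integrableOn_pot (μ := μ) (by omega) hAc hfc x (m := N - 2) (by linarith)
    simpa [hP₀, neg_sub] using this
  have hlim := ((tendsto_approx (μ := μ) (by omega) hw1.continuous hwcs x).const_mul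
    (N * (N - 2))).abs
  rw [hwx, ← mul_assoc,
    abs_of_nonneg (mul_nonneg (mul_nonneg (mul_nonneg (by linarith) (by linarith)) hM.le) (hu0 x))] at hlim
  refine le_of_tendsto hlim ?_
  filter_upwards [eventually_gt_atTop 0] with c hc
  have hε : 0 < (c⁻¹) ^ 2 := by positivity
  set ε := (c⁻¹) ^ 2
  set b : ℝ := (2 - N) / 2 with hb
  have hkey := key (kerR x ε b) (contDiff_kerR x hε b) hP₀i ?_ N (by linarith) ?_
  · rw [← integral_const_mul, ← abs_neg, ← integral_neg]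
    refine (le_of_eq (congrArg _ (integral_congr_ae (Eventually.of_forall fun y => ?_)))).trans hkey
    simp only [lapB_kerR B₀ x hε (b := b) (by rw [hb, hcard]; ring) y, hcard]
    rw [show b - 2 = -((Module.finrank ℝ E : ℝ) + 2) / 2 by rw [hb, hN]; ring, hb]
    ring
  · filter_upwards [hxy] with y hy
    refine mul_le_mul_of_nonneg_right ?_ (hf0 y)
    rw [abs_of_nonneg (hker ε b hε y), show (2 - N) = -(N - 2) by ring]
    exact ker_bound x hε.le (by rw [hb]; linarith) (by rw [hb]; ring) hy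
  · intro y hy
    refine ⟨?_, fun i => ?_⟩
    · rw [abs_of_nonneg (hker ε b hε y)]
      refine (ker_far hh hD1 (by rw [hb]; linarith) ((Module.finrank ℝ E) - 1) ?_ hε.le hy).trans
        (le_mul_of_one_le_left (by positivity) (by linarith))
      rw [Nat.cast_sub (by omega : 1 ≤ (Module.finrank ℝ E)), hb, ← hN]
      push_cast; linarith
    · rw [fderiv_kerR x hε, abs_mul (2 * b), abs_mul ⟪y - x, B₀ i⟫, abs_of_nonneg (Real.rpow_nonneg (by positivity) _),
        abs_of_nonpos (show 2 * b ≤ 0 by rw [hb]; linarith)]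
      calc -(2 * b) * (|⟪y - x, B₀ i⟫| * (‖y - x‖ ^ 2 + ε) ^ (b - 1))
          ≤ N * ((‖y - x‖ ^ 2 + ε) ^ ((1 : ℝ) / 2) * (‖y - x‖ ^ 2 + ε) ^ (b - 1)) := by
            gcongr
            · rw [hb]; linarith
            · refine (abs_real_inner_le_norm _ _).trans ?_
              rw [B₀.norm_eq_one, mul_one, ← Real.sqrt_eq_rpow]
              exact Real.le_sqrt_of_sq_le (by linarith)
        _ = N * (‖y - x‖ ^ 2 + ε) ^ (b - 1 + 1 / 2) := by
            rw [← Real.rpow_add (by positivity)]; ring_nf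
        _ ≤ N * D ^ (Module.finrank ℝ E) := mul_le_mul_of_nonneg_left
            (ker_far hh hD1 (by rw [hb]; linarith) (Module.finrank ℝ E) (by rw [hb, ← hN]; linarith) hε.le hy) (by linarith)

include hn in
/-- The derivative at `x`. -/
theorem deriv_bound (key : CutTerm μ B₀ A f w x h Cc Iu) (hh : 0 < h) (hD1 : 1 ≤ 12 / h)
    (hAc : IsCompact A) (hfc : Continuous f) (hf0 : ∀ y, 0 ≤ f y)
    (hw1 : ContDiff ℝ 1 w) (hwcs : HasCompactSupport w) (hwd : fderiv ℝ w x = fderiv ℝ u x)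
    (v : E) :
    (Module.finrank ℝ E : ℝ) * ((Module.finrank ℝ E : ℝ) - 2) * bumpMass μ * ‖fderiv ℝ u x v‖ ≤
      ‖v‖ * (((Module.finrank ℝ E : ℝ) - 2) *
        ((∫ y in A, ‖x - y‖ ^ (1 - (Module.finrank ℝ E : ℝ)) * f y ∂μ) +
          Cc * ((Module.finrank ℝ E : ℝ) + 1) * (1 + 2 * (Module.finrank ℝ E : ℝ)) *
            (12 / h) ^ (Module.finrank ℝ E + 1) * Iu)) := by
  set N : ℝ := ((Module.finrank ℝ E) : ℝ) with hN
  have hcard : (Fintype.card (Fin (Module.finrank ℝ E)) : ℝ) = N := by rw [Fintype.card_fin]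
  have hN3 : 3 ≤ N := by rw [hN]; exact_mod_cast hn
  have hM := bumpMass_pos (μ := μ)
  have hden0 : 0 < N * (N - 2) * bumpMass μ := mul_pos (mul_pos (by linarith) (by linarith)) hM
  have hxy : ∀ᵐ y ∂μ, y ≠ x := by
    haveI : Nontrivial E := Module.nontrivial_of_finrank_pos (R := ℝ) (by omega)
    filter_upwards [compl_mem_ae_iff.2 (measure_singleton x)] with y hy using hy
  set D := 12 / h with hD
  set P₁ : E → ℝ := fun y => ‖x - y‖ ^ (1 - N) * f y with hP₁
  have hP₁i : IntegrableOn P₁ A μ := by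
    have := integrableOn_pot (μ := μ) (by omega) hAc hfc x (m := N - 1) (by linarith)
    simpa [hP₁, neg_sub] using this
  set G := (∫ y in A, P₁ y ∂μ) + Cc * (N + 1) * (1 + 2 * N) * D ^ ((Module.finrank ℝ E) + 1) * Iu with hG
  have hlim := ((tendsto_approx (μ := μ) (by omega) ((hw1.continuous_fderiv one_ne_zero).clm_apply
    continuous_const) (hwcs.fderiv_apply (𝕜 := ℝ) v) x).const_mul (N * (N - 2))).abs
  rw [hwd, ← mul_assoc, abs_mul, abs_of_pos hden0, ← Real.norm_eq_abs] at hlim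
  refine le_of_tendsto hlim ?_
  filter_upwards [eventually_gt_atTop 0] with c hc
  have hε : 0 < (c⁻¹) ^ 2 := by positivity
  set ε := (c⁻¹) ^ 2
  set b : ℝ := -N / 2 with hb
  have hkey := key (kerV x v ε b) (contDiff_kerV x v hε b) (P := fun y => ‖v‖ * P₁ y)
    (hP₁i.const_mul _) ?_ (‖v‖ * (N + 1)) (by positivity) ?_
  · rw [integral_const_mul] at hkey
    have hibp : ∫ y, w y * kerV x v ε (b - 2) y ∂μ =
        (N + 2)⁻¹ * ∫ y, kerR x ε (b - 1) y * fderiv ℝ w y v ∂μ := by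
      have hd : ∀ y, fderiv ℝ (kerR x ε (b - 1)) y v = -(N + 2) * kerV x v ε (b - 2) y := fun y => by
        rw [fderiv_kerR x hε, show b - 1 - 1 = b - 2 by ring, kerV, hb]; ring
      have c1 : Continuous (kerR x ε (b - 1)) := (contDiff_kerR x hε _).continuous
      have c2 : Continuous fun y => fderiv ℝ w y v :=
        (hw1.continuous_fderiv one_ne_zero).clm_apply continuous_const
      have c3 : Continuous fun y => fderiv ℝ (kerR x ε (b - 1)) y v :=
        ((contDiff_kerR x hε _).continuous_fderiv (by simp)).clm_apply continuous_const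
      have hp := integral_mul_fderiv_eq_neg_fderiv_mul_of_integrable (μ := μ) (v := v)
        (f := w) (g := kerR x ε (b - 1))
        ((c2.mul c1).integrable_of_hasCompactSupport (hwcs.fderiv_apply (𝕜 := ℝ) v).mul_right)
        ((hw1.continuous.mul c3).integrable_of_hasCompactSupport hwcs.mul_right)
        ((hw1.continuous.mul c1).integrable_of_hasCompactSupport hwcs.mul_right)
        (fun y _ => hw1.differentiable one_ne_zero y)
        (fun y _ => (contDiff_kerR x hε _).differentiable (by simp) y)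
      rw [show (fun y => w y * fderiv ℝ (kerR x ε (b - 1)) y v) =
        fun y => -(N + 2) * (w y * kerV x v ε (b - 2) y) from
          funext fun y => by rw [hd]; ring, integral_const_mul] at hp
      rw [show (fun y => kerR x ε (b - 1) y * fderiv ℝ w y v) =
        fun y => fderiv ℝ w y v * kerR x ε (b - 1) y from funext fun y => mul_comm _ _]
      field_simp
      linarith
    have e : ∫ y, w y * lapB B₀ (kerV x v ε b) y ∂μ =
        -(N * ε * ∫ y, kerR x ε (b - 1) y * fderiv ℝ w y v ∂μ) := by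
      rw [show (fun y => w y * lapB B₀ (kerV x v ε b) y) =
        fun y => (2 * b * (N + 2) * ε) * (w y * kerV x v ε (b - 2) y) from funext fun y => by
          rw [lapB_kerV B₀ x v hε (b := b) (by rw [hb, hcard]; ring) y, hcard]; ring,
        integral_const_mul, hibp, hb]
      field_simp
    rw [e, abs_neg, show b - 1 = -((Module.finrank ℝ E : ℝ) + 2) / 2 by rw [hb, hN]; ring] at hkey
    refine le_trans (le_of_eq ?_) ((mul_le_mul_of_nonneg_left hkey
      (show (0 : ℝ) ≤ N - 2 by linarith)).trans (le_of_eq (by rw [hG]; ring)))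
    conv_rhs => rw [← abs_of_nonneg (show (0 : ℝ) ≤ N - 2 by linarith), ← abs_mul]
    congr 1
    rw [← integral_const_mul, ← integral_const_mul, ← integral_const_mul]
    exact integral_congr_ae (Eventually.of_forall fun y => by ring)
  · filter_upwards [hxy] with y hy
    rw [← mul_assoc ‖v‖]
    refine mul_le_mul_of_nonneg_right ?_ (hf0 y)
    rw [kerV, abs_mul, abs_of_nonneg (Real.rpow_nonneg (by positivity) _)]
    have h0 : 0 < ‖x - y‖ := norm_pos_iff.2 (sub_ne_zero.2 hy.symm)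
    calc |⟪y - x, v⟫| * (‖y - x‖ ^ 2 + ε) ^ b ≤ (‖x - y‖ * ‖v‖) * ‖x - y‖ ^ (-N) := by
          gcongr
          · rw [norm_sub_rev]; exact abs_real_inner_le_norm _ _
          · exact ker_bound x hε.le (by rw [hb]; linarith) (by rw [hb]; ring) hy
      _ = ‖v‖ * ‖x - y‖ ^ (1 - N) := by
          rw [show (1 - N) = 1 + -N by ring, Real.rpow_add h0, Real.rpow_one]; ring
  · intro y hy
    have h0 : 0 < ‖y - x‖ ^ 2 + ε := by positivity
    refine ⟨?_, fun i => ?_⟩
    · rw [kerV, abs_mul, abs_of_nonneg (Real.rpow_nonneg h0.le _)]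
      calc |⟪y - x, v⟫| * (‖y - x‖ ^ 2 + ε) ^ b
          ≤ ((‖y - x‖ ^ 2 + ε) ^ ((1 : ℝ) / 2) * ‖v‖) * (‖y - x‖ ^ 2 + ε) ^ b := by
            gcongr
            refine (abs_real_inner_le_norm _ _).trans ?_
            rw [← Real.sqrt_eq_rpow]
            gcongr
            exact Real.le_sqrt_of_sq_le (by linarith)
        _ = ‖v‖ * (‖y - x‖ ^ 2 + ε) ^ (b + 1 / 2) := by rw [Real.rpow_add h0]; ring
        _ ≤ ‖v‖ * D ^ ((Module.finrank ℝ E) - 1) := mul_le_mul_of_nonneg_left (ker_far hh hD1 (by rw [hb]; linarith) ((Module.finrank ℝ E) - 1)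
            (by rw [Nat.cast_sub (by omega : 1 ≤ (Module.finrank ℝ E)), hb, ← hN]; push_cast; linarith) hε.le hy)
            (norm_nonneg _)
        _ ≤ ‖v‖ * (N + 1) * D ^ ((Module.finrank ℝ E) - 1) := by
            gcongr
            exact le_mul_of_one_le_right (norm_nonneg _) (by linarith)
    · rw [fderiv_kerV x v hε, kerV, kerR,
        show ⟪y - x, v⟫ * (⟪y - x, B₀ i⟫ * (‖y - x‖ ^ 2 + ε) ^ (b - 1)) =
          (⟪y - x, v⟫ * ⟪y - x, B₀ i⟫) * (‖y - x‖ ^ 2 + ε) ^ (b - 1) by ring]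
      refine (abs_add_le _ _).trans ?_
      rw [abs_mul, abs_mul (2 * b), abs_mul (⟪y - x, v⟫ * ⟪y - x, B₀ i⟫),
        abs_of_nonneg (Real.rpow_nonneg h0.le _), abs_of_nonneg (Real.rpow_nonneg h0.le _),
        abs_of_nonpos (show 2 * b ≤ 0 by rw [hb]; linarith)]
      have i1 := abs_real_inner_le_norm v (B₀ i)
      have i2 := abs_inner_mul_le x y (B₀ i) v
      rw [B₀.norm_eq_one, mul_one] at i1 i2
      calc |⟪v, B₀ i⟫| * (‖y - x‖ ^ 2 + ε) ^ b +
            -(2 * b) * (|⟪y - x, v⟫ * ⟪y - x, B₀ i⟫| * (‖y - x‖ ^ 2 + ε) ^ (b - 1))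
          ≤ ‖v‖ * (‖y - x‖ ^ 2 + ε) ^ b +
            -(2 * b) * (‖v‖ * ((‖y - x‖ ^ 2 + ε)) * (‖y - x‖ ^ 2 + ε) ^ (b - 1)) := by
            gcongr
            · rw [hb]; linarith
            · exact i2.trans (mul_le_mul_of_nonneg_left (by linarith) (norm_nonneg _))
        _ = ‖v‖ * (N + 1) * (‖y - x‖ ^ 2 + ε) ^ b := by
            rw [mul_assoc ‖v‖ (‖y - x‖ ^ 2 + ε), mul_comm (‖y - x‖ ^ 2 + ε),
              ← Real.rpow_add_one h0.ne', sub_add_cancel, hb]
            ring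
        _ ≤ ‖v‖ * (N + 1) * D ^ (Module.finrank ℝ E) := mul_le_mul_of_nonneg_left
            (ker_far hh hD1 (by rw [hb]; linarith) (Module.finrank ℝ E) (by rw [hb, ← hN]; linarith) hε.le hy) (by positivity)

end limits

/-- **Local potential bounds**, general space. -/
theorem local_bounds' (hn : 3 ≤ Module.finrank ℝ E) :
    ∃ C : ℝ, 0 ≤ C ∧ ∀ u f : E → ℝ, (∀ x, 0 ≤ u x) → (∀ x, 0 ≤ f x) → Continuous f →
      Continuous u → ContDiffOn ℝ 2 u {0}ᶜ →
      (∀ x, x ≠ 0 → Laplacian.laplacian u x = -(f x)) →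
      ∀ r h : ℝ, 1 ≤ r → 0 < h → r + h ≤ 4 → ∀ x : E, 1 ≤ ‖x‖ → ‖x‖ ≤ r + h / 2 →
        u x ≤ C * (∫ y in {y : E | 1 / 2 ≤ ‖y‖ ∧ ‖y‖ ≤ r + h},
              ‖x - y‖ ^ (2 - (Module.finrank ℝ E : ℝ)) * f y ∂μ) +
            C * h ^ (-((Module.finrank ℝ E : ℝ) + 1)) *
              (∫ y in {y : E | 1 / 2 ≤ ‖y‖ ∧ ‖y‖ ≤ r + h}, u y ∂μ) ∧
        ‖fderiv ℝ u x‖ ≤ C * (∫ y in {y : E | 1 / 2 ≤ ‖y‖ ∧ ‖y‖ ≤ r + h},
              ‖x - y‖ ^ (1 - (Module.finrank ℝ E : ℝ)) * f y ∂μ) +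
            C * h ^ (-((Module.finrank ℝ E : ℝ) + 1)) *
              (∫ y in {y : E | 1 / 2 ≤ ‖y‖ ∧ ‖y‖ ≤ r + h}, u y ∂μ) := by
  classical
  let B := stdOrthonormalBasis ℝ E
  set d := Module.finrank ℝ E with hd
  have hcard : (Fintype.card (Fin d) : ℝ) = d := by simp
  set N : ℝ := (d : ℝ) with hN
  have hN3 : 3 ≤ N := by rw [hN]; exact_mod_cast hn
  obtain ⟨Cc, hCc, hcut⟩ := exists_cut (E := E) B
  have hM := bumpMass_pos (μ := μ)
  set den : ℝ := N * (N - 2) * bumpMass μ with hden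
  have hden0 : 0 < den := by rw [hden]; exact mul_pos (mul_pos (by linarith) (by linarith)) hM
  set K : ℝ := Cc * 12 ^ (d + 1) * (1 + 2 * N * ((N + 1) * (N + 2))) * (N + 1) with hK
  refine ⟨(N + K) / den, by positivity,
    fun u f hu0 hf0 hfc huc hu heq r h hr hh hrh x hx1 hx2 => ?_⟩
  set A : Set E := {y : E | 1 / 2 ≤ ‖y‖ ∧ ‖y‖ ≤ r + h} with hA
  have hAc : IsCompact A := by
    refine Metric.isCompact_of_isClosed_isBounded ?_ ?_
    · exact (isClosed_le continuous_const continuous_norm).inter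
        (isClosed_le continuous_norm continuous_const)
    · exact (isBounded_closedBall (x := (0 : E)) (r := r + h)).subset fun y hy => by
        simpa using hy.2
  have hA0 : A ⊆ {0}ᶜ := fun y hy h0 => by
    have := hy.1
    rw [mem_singleton_iff.1 h0, norm_zero] at this
    norm_num at this
  obtain ⟨η, hη, hη0, hη1, hηA, hηone, hηd, hηL⟩ := hcut r h hr hh hrh
  set D := 12 / h with hD
  have hD1 : 1 ≤ D := by rw [hD, le_div_iff₀ hh]; linarith
  set Iu := ∫ y in A, u y ∂μ with hIu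
  have hIu0 : 0 ≤ Iu := integral_nonneg fun y => hu0 y
  have hx0 : x ≠ 0 := norm_pos_iff.1 (by linarith)
  have near : ∀ᶠ y in 𝓝 x, η y = 1 := by
    have ho : IsOpen {y : E | 3 / 4 < ‖y‖ ∧ ‖y‖ < r + 3 * h / 4} :=
      (isOpen_lt continuous_const continuous_norm).inter (isOpen_lt continuous_norm continuous_const)
    filter_upwards [ho.mem_nhds (show x ∈ _ from ⟨by linarith, by linarith⟩)] with y hy
    exact hηone y hy.1.le hy.2.le
  set w : E → ℝ := fun y => η y * u y with hw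
  have hwA : Function.support w ⊆ A := (Function.support_mul_subset_left _ _).trans hηA
  have hwcs : HasCompactSupport w := HasCompactSupport.intro hAc fun y hy =>
    Function.notMem_support.1 fun h => hy (hwA h)
  have hw1 : ContDiff ℝ 1 w := by
    refine contDiff_iff_contDiffAt.2 fun y => ?_
    by_cases hy : y ∈ A
    · exact (hη.of_le one_le_two).contDiffAt.mul
        ((hu.of_le one_le_two).contDiffAt (isOpen_compl_singleton.mem_nhds (hA0 hy)))
    · refine contDiffAt_const (c := (0 : ℝ)).congr_of_eventuallyEq ?_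
      filter_upwards [hAc.isClosed.isOpen_compl.mem_nhds hy] with z hz
      exact Function.notMem_support.1 fun h => hz (hwA h)
  have key := cutTerm (μ := μ) B hn hu0 hf0 hfc hu heq hr hh hrh hCc hx1 hx2 hAc hA0 hη hη0 hη1
    hηA hηone hηd hηL
  have val := value_bound (μ := μ) hn B key hh hD1 hAc hfc hf0 hu0 hw1 hwcs
    (by simp [near.self_of_nhds])
  have grad := fun v => deriv_bound (u := u) (μ := μ) hn B key hh hD1 hAc hfc hf0 hw1 hwcs
    (Filter.EventuallyEq.fderiv_eq (by filter_upwards [near] with y hy; simp [hy])) v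
  have hA' : ∀ {P : E → ℝ}, (∀ y, 0 ≤ P y) → 0 ≤ ∫ y in A, P y ∂μ := fun hP =>
    integral_nonneg fun y => hP y
  set P₀ : E → ℝ := fun y => ‖x - y‖ ^ (2 - N) * f y with hP₀
  set P₁ : E → ℝ := fun y => ‖x - y‖ ^ (1 - N) * f y with hP₁
  set G := (∫ y in A, P₁ y ∂μ) + Cc * (N + 1) * (1 + 2 * N) * D ^ (d + 1) * Iu with hG
  have hP₁0 : ∀ y, 0 ≤ P₁ y := fun y => mul_nonneg (Real.rpow_nonneg (norm_nonneg _) _) (hf0 y)
  have hP₀0 : ∀ y, 0 ≤ P₀ y := fun y => mul_nonneg (Real.rpow_nonneg (norm_nonneg _) _) (hf0 y)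
  -- constants
  have hh' : D ^ (d + 1) = 12 ^ (d + 1) * h ^ (-(N + 1)) := by
    rw [hD, div_pow, Real.rpow_neg hh.le, div_eq_mul_inv, hN,
      show (d : ℝ) + 1 = ((d + 1 : ℕ) : ℝ) by push_cast; ring, Real.rpow_natCast]
  have hhp : 0 ≤ h ^ (-(N + 1)) * Iu := by positivity
  have hCK : ∀ a : ℝ, 0 ≤ a → a ≤ (N + 1) * (N + 2) →
      Cc * a * (1 + 2 * N) * 12 ^ (d + 1) ≤ K := by
    intro a ha ha2
    rw [hK]
    have : (1 + 2 * N) * a ≤ (1 + 2 * N * ((N + 1) * (N + 2))) * (N + 1) := by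
      nlinarith [mul_le_mul_of_nonneg_left ha2 (by linarith : (0 : ℝ) ≤ 1 + 2 * N),
        mul_nonneg (mul_nonneg (by linarith : (0 : ℝ) ≤ N) (by linarith : (0 : ℝ) ≤ N + 1))
          (by linarith : (0 : ℝ) ≤ N + 2)]
    calc Cc * a * (1 + 2 * N) * 12 ^ (d + 1) = Cc * 12 ^ (d + 1) * ((1 + 2 * N) * a) := by ring
      _ ≤ Cc * 12 ^ (d + 1) * ((1 + 2 * N * ((N + 1) * (N + 2))) * (N + 1)) :=
          mul_le_mul_of_nonneg_left this (by positivity)
      _ = _ := by ring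
  have hfin : ∀ (I : ℝ), 0 ≤ I → ∀ {R : ℝ}, den * R ≤ N * I + K * (h ^ (-(N + 1)) * Iu) →
      R ≤ (N + K) / den * I + (N + K) / den * h ^ (-(N + 1)) * Iu := by
    intro I hI R hR
    rw [div_mul_eq_mul_div, div_mul_eq_mul_div, div_mul_eq_mul_div, ← add_div, le_div_iff₀ hden0]
    have : 0 ≤ K * I := by positivity
    have : 0 ≤ N * (h ^ (-(N + 1)) * Iu) := by positivity
    linarith
  refine ⟨hfin _ (hA' hP₀0) ?_, ?_⟩
  · have h1 := mul_le_mul_of_nonneg_right (hCK N (by linarith) (by nlinarith)) hhp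
    have := mul_le_mul_of_nonneg_right (show (1 : ℝ) ≤ N by linarith) (hA' hP₀0)
    rw [hh'] at val
    linarith
  · refine ContinuousLinearMap.opNorm_le_bound _ (by have := hA' hP₁0; positivity) fun v => ?_
    have hG' : (N - 2) * G ≤ N * (∫ y in A, P₁ y ∂μ) + K * (h ^ (-(N + 1)) * Iu) := by
      have h1 := mul_le_mul_of_nonneg_right (hCK ((N - 2) * (N + 1))
        (mul_nonneg (by linarith) (by linarith)) (by nlinarith)) hhp
      have := hA' hP₁0
      rw [hG, hh']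
      linarith
    rcases eq_or_ne v 0 with rfl | hv
    · simp
    have hv0 : 0 < ‖v‖ := norm_pos_iff.2 hv
    rw [← div_le_iff₀ hv0]
    refine hfin _ (hA' hP₁0) ?_
    rw [mul_div_assoc', div_le_iff₀ hv0]
    have := mul_le_mul_of_nonneg_left hG' hv0.le
    linarith [grad v]

/-- **Local potential bounds.** -/
theorem local_bounds {n : ℕ} (hn : 3 ≤ n) :
    ∃ C M : ℝ, 0 ≤ C ∧ 0 ≤ M ∧ ∀ u f : EuclideanSpace ℝ (Fin n) → ℝ,
      (∀ x, 0 ≤ u x) → (∀ x, 0 ≤ f x) → Continuous f → Continuous u → ContDiffOn ℝ 2 u {0}ᶜ →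
      (∀ x, x ≠ 0 → Laplacian.laplacian u x = -(f x)) →
      ∀ r h : ℝ, 1 ≤ r → 0 < h → r + h ≤ 4 → ∀ x, 1 ≤ ‖x‖ → ‖x‖ ≤ r + h / 2 →
        u x ≤ C * (∫ y in {y : EuclideanSpace ℝ (Fin n) | 1 / 2 ≤ ‖y‖ ∧ ‖y‖ ≤ r + h},
              ‖x - y‖ ^ (2 - (n : ℝ)) * f y) +
            C * h ^ (-M) * (∫ y in {y : EuclideanSpace ℝ (Fin n) | 1 / 2 ≤ ‖y‖ ∧ ‖y‖ ≤ r + h}, u y) ∧
        ‖fderiv ℝ u x‖ ≤ C * (∫ y in {y : EuclideanSpace ℝ (Fin n) | 1 / 2 ≤ ‖y‖ ∧ ‖y‖ ≤ r + h},
              ‖x - y‖ ^ (1 - (n : ℝ)) * f y) +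
            C * h ^ (-M) * (∫ y in {y : EuclideanSpace ℝ (Fin n) | 1 / 2 ≤ ‖y‖ ∧ ‖y‖ ≤ r + h}, u y) := by
  obtain ⟨C, hC, h⟩ := local_bounds' (μ := (volume : Measure (EuclideanSpace ℝ (Fin n))))
    (by rw [finrank_euclideanSpace_fin]; exact hn)
  refine ⟨C, (n : ℝ) + 1, hC, by positivity, fun u f h1 h2 h3 h4 h5 h6 r t h7 h8 h9 x h10 h11 => ?_⟩
  simpa only [finrank_euclideanSpace_fin] using h u f h1 h2 h3 h4 h5 h6 r t h7 h8 h9 x h10 h11

end Vale.Agent.P100.Souplet
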