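import Mathlib
import Vale.Agent.P100.GoodRadius

/-!
# Exponents and elementary integral inequalities for the range `max (α, β) > n - 3`
-/

open MeasureTheory Filter Set Metric Topology
open scoped ENNReal NNReal

namespace Vale.Agent.P100.Souplet

/-- The choice of exponents: `A` is the amount of integrability of `v ^ p` beyond `L¹`, `B` the
one of `u ^ q`. -/
theorem exists_exponents {n p q : ℝ} (hn : 5 ≤ n) (hq : 0 < q) (hqp : q ≤ p) (hpq : 1 < p * q)
    (ha : n - 3 < 2 * (p + 1) / (p * q - 1)) :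
    ∃ k A B : ℝ, n - 3 < (n - 1) * k ∧ k < 1 ∧ 0 ≤ A ∧ 0 ≤ B ∧ A + B = k ∧ A < 1 ∧ B < 1 ∧
      A * (p + 1) ≤ 1 ∧ B * (q + 1) ≤ 1 ∧ k ≤ 1 / (q + 1) + A ∧ 1 / (q + 1) + A ≤ 1 ∧
      p * A * (q + 1) < 1 ∧ p * A + q * B < 1 := by
  have hp : 0 < p := hq.trans_le hqp
  have hd : 0 < p * q - 1 := by linarith
  rw [lt_div_iff₀ hd] at ha
  have hq1 : 0 < q + 1 := by linarith
  set k₀ := (n - 3) / (n - 1) with hk₀
  set k₁ := (1 / p + 1) / (q + 1) with hk₁
  have hlt : k₀ < min k₁ 1 := by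
    refine lt_min ?_ ?_
    · rw [hk₀, hk₁, div_lt_div_iff₀ (by linarith) hq1, div_add_one hp.ne', div_mul_eq_mul_div,
        lt_div_iff₀ hp]
      nlinarith
    · rw [hk₀, div_lt_one (by linarith)]; linarith
  set k := (k₀ + min k₁ 1) / 2
  have hk : k₀ < k ∧ k < k₁ ∧ k < 1 := by
    have := min_le_left k₁ 1
    have := min_le_right k₁ 1
    refine ⟨?_, ?_, ?_⟩ <;> simp only [k] <;> linarith
  have hk0 : 0 < k := lt_of_le_of_lt (div_nonneg (by linarith) (by linarith)) hk.1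
  have hkn : n - 3 < (n - 1) * k := by
    have := hk.1
    rw [hk₀, div_lt_iff₀ (by linarith)] at this
    linarith
  have hpk : p * (k * (q + 1) - 1) < 1 := by
    have h := hk.2.1
    rw [hk₁, lt_div_iff₀ hq1] at h
    have := mul_lt_mul_of_pos_left h hp
    rw [mul_add p, mul_one_div, div_self hp.ne', mul_one] at this
    linarith
  rcases le_or_gt k (1 / (q + 1)) with h | h
  · have h' := h
    rw [le_div_iff₀ hq1] at h'
    refine ⟨k, 0, k, hkn, hk.2.2, le_rfl, hk0.le, by simp, one_pos, hk.2.2, by simp, h',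
      by simpa using h, ?_, by simp, ?_⟩
    · rw [add_zero, div_le_one hq1]; linarith
    · nlinarith
  · set B := 1 / (q + 1) with hB
    have hB1 : B * (q + 1) = 1 := by rw [hB]; field_simp
    have hB0 : 0 < B := by positivity
    have hA : p * ((k - B) * (q + 1)) < 1 := by
      rw [sub_mul, hB1]; exact hpk
    refine ⟨k, k - B, B, hkn, hk.2.2, by linarith, hB0.le, by ring, by linarith,
      by rw [hB, div_lt_one hq1]; linarith, ?_, hB1.le, by linarith, by linarith,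
      by linarith, ?_⟩
    · have : 0 ≤ k - B := by linarith
      nlinarith
    · have e : q * B = 1 - B := by linarith
      rw [e]
      nlinarith

variable {X : Type*} [MeasurableSpace X] {μ : Measure X}

/-- Interpolation of the `L^(1/(1-A))` norm between `L¹` and `L^((p+1)/p)`. -/
theorem norm_bound {f : X → ℝ≥0∞} (hf : Measurable f) {p A L F : ℝ} (hp : 0 < p) (hA0 : 0 ≤ A)
    (hA : A * (p + 1) ≤ 1) (hL : 1 ≤ L) (hF : 1 ≤ F) (h1 : ∫⁻ x, f x ∂μ ≤ ENNReal.ofReal L)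
    (h2 : ∫⁻ x, f x ^ ((p + 1) / p) ∂μ ≤ ENNReal.ofReal F) :
    (∫⁻ x, f x ^ (1 / (1 - A)) ∂μ) ^ (1 - A) ≤ ENNReal.ofReal (L * F ^ (p * A)) := by
  have hA1 : A < 1 := by nlinarith
  set θ := p * A / (1 - A) with hθ
  have hθ0 : 0 ≤ θ := div_nonneg (by positivity) (by linarith)
  have hθ1 : θ ≤ 1 := by rw [hθ, div_le_one (by linarith)]; linarith
  have e : ∀ x, f x ^ (1 / (1 - A)) = f x ^ (1 - θ) * (f x ^ ((p + 1) / p)) ^ θ := fun x => by
    rw [← ENNReal.rpow_mul, ← ENNReal.rpow_add_of_nonneg _ _ (by linarith) (by positivity)]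
    congr 1
    rw [hθ]
    have : 1 - A ≠ 0 := by linarith
    field_simp
    ring
  have h := ENNReal.lintegral_mul_norm_pow_le (μ := μ) (p := 1 - θ) (q := θ) hf.aemeasurable
    (hf.pow_const ((p + 1) / p)).aemeasurable (by linarith) hθ0 (by ring)
  simp only [e]
  refine (ENNReal.rpow_le_rpow (h.trans (mul_le_mul' (ENNReal.rpow_le_rpow h1 (by linarith))
    (ENNReal.rpow_le_rpow h2 hθ0))) (by linarith)).trans ?_
  rw [ENNReal.ofReal_rpow_of_nonneg (by linarith) (by linarith),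
    ENNReal.ofReal_rpow_of_nonneg (by linarith) hθ0, ← ENNReal.ofReal_mul (by positivity),
    ENNReal.ofReal_rpow_of_nonneg (by positivity) (by linarith)]
  refine ENNReal.ofReal_le_ofReal ?_
  rw [Real.mul_rpow (by positivity) (by positivity), ← Real.rpow_mul (by linarith),
    ← Real.rpow_mul (by linarith), show θ * (1 - A) = p * A by
      rw [hθ, div_mul_cancel₀ _ (by linarith)]]
  exact mul_le_mul_of_nonneg_right (Real.rpow_le_self_of_one_le hL (by nlinarith)) (by positivity)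

/-- `∫ (c g + e) ^ σ` from a bound on the `L^σ` norm of `g`. -/
theorem lintegral_add_const_le {g : X → ℝ≥0∞} {σ c e W : ℝ} (hσ : 1 ≤ σ) (hc : 0 ≤ c)
    (he0 : 0 ≤ e) (he : e ≤ W) [IsFiniteMeasure μ]
    (hg : (∫⁻ x, g x ^ σ ∂μ) ^ (1 / σ) ≤ ENNReal.ofReal W) :
    ∫⁻ x, (ENNReal.ofReal c * g x + ENNReal.ofReal e) ^ σ ∂μ ≤
      ENNReal.ofReal (2 ^ σ * (c ^ σ + μ.real univ) * W ^ σ) := by
  have hσ0 : 0 < σ := by linarith
  have hW : 0 ≤ W := he0.trans he
  have hg' : ∫⁻ x, g x ^ σ ∂μ ≤ ENNReal.ofReal (W ^ σ) := by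
    have := ENNReal.rpow_le_rpow hg hσ0.le
    rwa [← ENNReal.rpow_mul, one_div_mul_cancel hσ0.ne', ENNReal.rpow_one,
      ENNReal.ofReal_rpow_of_nonneg hW hσ0.le] at this
  calc ∫⁻ x, (ENNReal.ofReal c * g x + ENNReal.ofReal e) ^ σ ∂μ
      ≤ ∫⁻ x, (ENNReal.ofReal (2 ^ σ * c ^ σ) * g x ^ σ + ENNReal.ofReal (2 ^ σ * W ^ σ)) ∂μ := by
        refine lintegral_mono fun x => ?_
        refine (ENNReal.rpow_add_le_mul_rpow_add_rpow _ _ hσ).trans ?_
        rw [mul_add, ENNReal.mul_rpow_of_nonneg _ _ hσ0.le, ← mul_assoc,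
          ENNReal.ofReal_rpow_of_nonneg hc hσ0.le, ENNReal.ofReal_rpow_of_nonneg he0 hσ0.le,
          ENNReal.ofReal_mul (by positivity), ENNReal.ofReal_mul (by positivity)]
        have h2 : (2 : ℝ≥0∞) ^ (σ - 1) ≤ ENNReal.ofReal ((2 : ℝ) ^ σ) := by
          rw [← ENNReal.ofReal_rpow_of_pos two_pos, ENNReal.ofReal_ofNat]
          exact ENNReal.rpow_le_rpow_of_exponent_le one_le_two (by linarith)
        gcongr
    _ = ENNReal.ofReal (2 ^ σ * c ^ σ) * ∫⁻ x, g x ^ σ ∂μ +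
          ENNReal.ofReal (2 ^ σ * W ^ σ) * μ univ := by
        rw [lintegral_add_right _ measurable_const, lintegral_const_mul' _ _ ENNReal.ofReal_ne_top,
          lintegral_const]
    _ ≤ ENNReal.ofReal (2 ^ σ * c ^ σ) * ENNReal.ofReal (W ^ σ) +
          ENNReal.ofReal (2 ^ σ * W ^ σ) * ENNReal.ofReal (μ.real univ) := by
        rw [ofReal_measureReal (measure_ne_top _ _)]
        gcongr
    _ = _ := by
        rw [← ENNReal.ofReal_mul (by positivity), ← ENNReal.ofReal_mul (by positivity),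
          ← ENNReal.ofReal_add (by positivity) (by positivity)]
        congr 1
        ring

/-- The iteration: a bound `F r ≤ C h^(-M) (1 + F (r + h))^δ` with `δ < 1` bounds `F 1`. -/
theorem iterate_bound {δ M C : ℝ} (hδ0 : 0 ≤ δ) (hδ : δ < 1) (hM : 0 ≤ M) (hC : 0 ≤ C) :
    ∃ C' : ℝ, ∀ F : ℝ → ℝ, (∀ r, 0 ≤ F r) → (∃ b, ∀ r ∈ Icc (1 : ℝ) 2, F r ≤ b) →
      (∀ r h, 1 ≤ r → 0 < h → h ≤ 1 → r + h ≤ 2 → F r ≤ C * h ^ (-M) * (1 + F (r + h)) ^ δ) →
      F 1 ≤ C' := by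
  set m := M / (1 - δ) with hm
  have hd : 0 < 1 - δ := by linarith
  have hm0 : 0 ≤ m := by positivity
  refine ⟨(C * 2 ^ m + 1) ^ (1 / (1 - δ)), fun F hF ⟨b, hb⟩ hrec => ?_⟩
  set S := (fun r => (2 - r) ^ m * F r) '' Ico (1 : ℝ) 2
  have hbd : BddAbove S := by
    refine ⟨max b 0, ?_⟩
    rintro _ ⟨r, hr, rfl⟩
    refine le_trans (mul_le_of_le_one_left (hF r) ?_)
      ((hb r ⟨hr.1, hr.2.le⟩).trans (le_max_left _ _))
    exact Real.rpow_le_one (by linarith [hr.2]) (by linarith [hr.1]) hm0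
  set Φ := sSup S
  have hmem : ∀ r ∈ Ico (1 : ℝ) 2, (2 - r) ^ m * F r ≤ Φ := fun r hr =>
    le_csSup hbd (mem_image_of_mem _ hr)
  have h1 : F 1 ≤ Φ := by
    have := hmem 1 ⟨le_rfl, by norm_num⟩
    norm_num at this
    exact this
  have hΦ : 0 ≤ Φ := (hF 1).trans h1
  have key : Φ ≤ C * 2 ^ m * (1 + Φ) ^ δ := by
    refine csSup_le ((nonempty_Ico.2 (by norm_num)).image _) ?_
    rintro _ ⟨r, hr, rfl⟩
    obtain ⟨hr1, hr2⟩ := hr
    set h := (2 - r) / 2 with hh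
    have hh0 : 0 < h := by rw [hh]; linarith
    have hh1 : h ≤ 1 := by rw [hh]; linarith
    have e1 : 2 - (r + h) = h := by rw [hh]; ring
    have h2 := hmem (r + h) ⟨by linarith, by linarith⟩
    rw [e1] at h2
    have hhm : 0 < h ^ m := Real.rpow_pos_of_pos hh0 m
    have h3 : 1 + F (r + h) ≤ (1 + Φ) * h ^ (-m) := by
      rw [Real.rpow_neg hh0.le, ← div_eq_mul_inv, le_div_iff₀ hhm]
      have : h ^ m ≤ 1 := Real.rpow_le_one hh0.le hh1 hm0
      nlinarith
    have h4 := (hrec r h hr1 hh0 hh1 (by linarith)).trans (mul_le_mul_of_nonneg_left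
      (Real.rpow_le_rpow (by linarith [hF (r + h)]) h3 hδ0) (by positivity))
    show (2 - r) ^ m * F r ≤ _
    refine (mul_le_mul_of_nonneg_left h4 (Real.rpow_nonneg (by linarith) m)).trans (le_of_eq ?_)
    rw [show 2 - r = 2 * h by rw [hh]; ring, Real.mul_rpow two_pos.le hh0.le,
      Real.mul_rpow (by linarith) (by positivity), ← Real.rpow_mul hh0.le]
    have e2 : h ^ m * (h ^ (-M) * h ^ (-m * δ)) = 1 := by
      rw [← Real.rpow_add hh0, ← Real.rpow_add hh0,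
        show m + (-M + -m * δ) = m * (1 - δ) - M by ring, hm, div_mul_cancel₀ _ hd.ne', sub_self,
        Real.rpow_zero]
    linear_combination (2 ^ m * C * (1 + Φ) ^ δ) * e2
  refine h1.trans ?_
  have hP : 1 ≤ (1 + Φ) ^ δ := Real.one_le_rpow (by linarith) hδ0
  have h5 : 1 + Φ ≤ (C * 2 ^ m + 1) * (1 + Φ) ^ δ := by nlinarith
  have h6 : (1 + Φ) ^ (1 - δ) ≤ C * 2 ^ m + 1 := by
    rw [Real.rpow_sub (by linarith), Real.rpow_one, div_le_iff₀ (by positivity)]
    exact h5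
  have h7 := Real.rpow_le_rpow (by positivity) h6 (by positivity : (0 : ℝ) ≤ 1 / (1 - δ))
  rw [← Real.rpow_mul (by linarith), mul_one_div_cancel hd.ne', Real.rpow_one] at h7
  linarith

end Vale.Agent.P100.Souplet
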