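import Mathlib
import Vale.Agent.P100.Compare
import Vale.Agent.P100.UnitBound

/-!
# Uniform bounds on an annulus for positive entire solutions

For `p q > 1` the integrals of `u`, `v`, `v ^ p`, `u ^ q` over `1/2 ≤ ‖x‖ ≤ 4` are bounded by a
constant that does not depend on the solution.
-/

open MeasureTheory Filter Set Metric Topology Laplacian

namespace Vale.Agent.P100.Souplet

variable {n : ℕ}

/-- The annulus `1/2 ≤ ‖y‖ ≤ b`. -/
def ann (n : ℕ) (b : ℝ) : Set (EuclideanSpace ℝ (Fin n)) :=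
  {y | 1 / 2 ≤ ‖y‖ ∧ ‖y‖ ≤ b}

theorem isCompact_ann (n : ℕ) (b : ℝ) : IsCompact (ann n b) :=
  (isCompact_closedBall (0 : EuclideanSpace ℝ (Fin n)) b).of_isClosed_subset
    ((isClosed_le continuous_const continuous_norm).inter
      (isClosed_le continuous_norm continuous_const))
    fun y hy => by simpa using hy.2

theorem measurableSet_ann (n : ℕ) (b : ℝ) : MeasurableSet (ann n b) :=
  (isCompact_ann n b).isClosed.measurableSet

theorem newton_le_half (hn : 3 ≤ n) {y : EuclideanSpace ℝ (Fin n)} (hy : 1 / 2 ≤ ‖y‖) :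
    newton y ≤ ((1 / 4 : ℝ)) ^ ((2 - (n : ℝ)) / 2) :=
  Real.rpow_le_rpow_of_nonpos (by norm_num) (by nlinarith) (by
    have : (3 : ℝ) ≤ n := by exact_mod_cast hn
    linarith)

/-- A smooth superharmonic substitute, above `u` on a ball. -/
theorem exists_trunc_ge (hn : 3 ≤ n) {u f : EuclideanSpace ℝ (Fin n) → ℝ} (huc : Continuous u)
    (hu : ∀ y ≠ 0, ContDiffAt ℝ 2 u y) (hu0 : ∀ y, 0 ≤ u y) (hf0 : ∀ y, 0 ≤ f y)
    (equ : ∀ y ≠ 0, Laplacian.laplacian u y ≤ -(f y)) {x : EuclideanSpace ℝ (Fin n)}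
    (hx : 1 / 2 ≤ ‖x‖) (ρ : ℝ) :
    ∃ U : EuclideanSpace ℝ (Fin n) → ℝ, ContDiff ℝ 2 U ∧ (∀ y, 0 ≤ U y) ∧
      U x ≤ u x + ((1 / 4 : ℝ)) ^ ((2 - (n : ℝ)) / 2) + 2 ∧
      (∀ y, Laplacian.laplacian U y ≤ 0) ∧ (∀ y, ‖y‖ ≤ ρ → u y ≤ U y) ∧
      ∀ y, 1 / 2 ≤ ‖y‖ → ‖y‖ ≤ ρ → Laplacian.laplacian U y ≤ -(f y / 2) := by
  set N₀ := ((1 / 4 : ℝ)) ^ ((2 - (n : ℝ)) / 2) with hN₀
  have hN₀0 : 0 ≤ N₀ := by positivity
  have hx0 : x ≠ 0 := norm_ne_zero_iff.1 (by linarith)
  obtain ⟨C, hC0, hC⟩ := exists_bound huc ρ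
  set M := C + N₀ + 1 with hM
  set U := fun y : EuclideanSpace ℝ (Fin n) => if y = 0 then M else cap M (u y + newton y) with hU
  have hU0 : U =ᶠ[𝓝 0] fun _ => M := by
    filter_upwards [newton_large hn M] with y hy
    by_cases h : y = 0
    · simp [hU, h]
    · simp only [hU, h, if_false]
      exact cap_eq (by have := hu0 y; linarith [hy h])
  have hne : ∀ y : EuclideanSpace ℝ (Fin n), y ≠ 0 →
      U =ᶠ[𝓝 y] fun z => cap M (u z + newton z) := fun y hy => by
    filter_upwards [eventually_ne_nhds hy] with z hz using if_neg hz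
  have hcd : ∀ y : EuclideanSpace ℝ (Fin n), y ≠ 0 →
      ContDiffAt ℝ 2 (fun z => u z + newton z) y := fun y hy =>
    (hu y hy).add (contDiffAt_newton hy)
  have hlap : ∀ y, Laplacian.laplacian U y ≤ 0 ∧
      (1 / 2 ≤ ‖y‖ → ‖y‖ ≤ ρ → Laplacian.laplacian U y ≤ -(f y / 2)) := by
    intro y
    by_cases hy : y = 0
    · subst hy
      rw [(InnerProductSpace.laplacian_congr_nhds hU0).self_of_nhds]
      simp only [norm_zero]
      refine ⟨by simp, fun h => absurd h (by norm_num)⟩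
    rw [(InnerProductSpace.laplacian_congr_nhds (hne y hy)).self_of_nhds,
      laplacian_comp (hcd y hy) isOpen_univ trivial (fun t _ => cap_deriv M t)
        (fun t _ => cap_deriv2 M t)]
    set m := max (M - (u y + newton y)) 0
    set W := ∑ i, (fderiv ℝ (fun z => u z + newton z) y (stdB i)) ^ 2
    have hW : 0 ≤ W := Finset.sum_nonneg fun i _ => sq_nonneg _
    have hm : 0 ≤ m := le_max_right _ _
    have hA : -(2 * m / (1 + m ^ 2) ^ 2) * W ≤ 0 :=
      mul_nonpos_of_nonpos_of_nonneg (neg_nonpos.2 (by positivity)) hW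
    have hadd : Laplacian.laplacian (fun z => u z + newton z) y = Laplacian.laplacian u y := by
      rw [show (fun z => u z + newton z) = u + newton from rfl,
        (hu y hy).laplacian_add (contDiffAt_newton hy), laplacian_newton hy, add_zero]
    rw [hadd]
    have hL := equ y hy
    have hf := hf0 y
    have hB : m ^ 2 / (1 + m ^ 2) * Laplacian.laplacian u y ≤ 0 :=
      mul_nonpos_of_nonneg_of_nonpos (by positivity) (by linarith)
    refine ⟨by linarith, fun h1 hyρ => ?_⟩
    have h3 := newton_le_half hn h1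
    have hm1 : 1 ≤ m := le_max_of_le_left (by linarith [hC y hyρ])
    have hhalf : 1 / 2 ≤ m ^ 2 / (1 + m ^ 2) := by
      rw [div_le_div_iff₀ two_pos (by positivity)]; nlinarith
    nlinarith
  refine ⟨U, contDiff_iff_contDiffAt.2 fun y => ?_, fun y => ?_, ?_, fun y => (hlap y).1,
    fun y hyρ => ?_, fun y => (hlap y).2⟩
  · by_cases hy : y = 0
    · subst hy; exact contDiffAt_const.congr_of_eventuallyEq hU0
    · exact (((contDiff_cap M).contDiffAt).comp y (hcd y hy)).congr_of_eventuallyEq (hne y hy)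
  · by_cases hy : y = 0
    · simp only [hU, hy, if_true]; linarith
    · simp only [hU, hy, if_false]
      exact cap_nonneg (by linarith) (by have := hu0 y; have := newton_nonneg y; linarith)
  · simp only [hU, hx0, if_false]
    linarith [cap_le M (u x + newton x), newton_le_half hn hx]
  · by_cases hy : y = 0
    · simp only [hU, hy, if_true]
      linarith [hy ▸ hC y hyρ]
    · simp only [hU, hy, if_false]
      have h1 := newton_nonneg y
      rcases le_total M (u y + newton y) with h | h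
      · rw [cap_eq h]; linarith [hC y hyρ]
      · have := hPos_le (M - (u y + newton y))
        rw [max_eq_left (by linarith)] at this
        simp only [cap]
        linarith

/-- Change of variables `z = x + R y`. -/
theorem integral_comp_affine (g : EuclideanSpace ℝ (Fin n) → ℝ) (x : EuclideanSpace ℝ (Fin n))
    {R : ℝ} (hR : 0 ≤ R) :
    ∫ y, g (x + R • y) = (R ^ n)⁻¹ * ∫ z, g z := by
  rw [Measure.integral_comp_smul_of_nonneg (μ := (volume : Measure (EuclideanSpace ℝ (Fin n))))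
    (f := fun z => g (x + z)) R (hR := hR), finrank_euclideanSpace_fin, smul_eq_mul,
    integral_add_left_eq_self (μ := (volume : Measure (EuclideanSpace ℝ (Fin n)))) g x]

theorem weight_lower {y : EuclideanSpace ℝ (Fin n)} (hy : ‖y‖ ≤ 1 / 2) :
    (27 / 64 : ℝ) ≤ avgW y ∧ (81 / 2048 : ℝ) ≤ avgPot y := by
  have h4 : (3 / 4 : ℝ) ≤ max (1 - ‖y‖ ^ 2) 0 :=
    le_trans (by nlinarith [norm_nonneg y]) (le_max_left _ _)
  have h3 := pow_le_pow_left₀ (by norm_num) h4 3
  have h5 := pow_le_pow_left₀ (by norm_num) h4 4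
  simp only [avgW, avgPot]
  constructor <;> linarith

/-- The integrals over the annulus are controlled by the value at a point of norm `4`. -/
theorem point_bounds (hn : 3 ≤ n) : ∃ C : ℝ, 0 ≤ C ∧
    ∀ u f : EuclideanSpace ℝ (Fin n) → ℝ, Continuous u → (∀ y ≠ 0, ContDiffAt ℝ 2 u y) →
      (∀ y, 0 ≤ u y) → Continuous f → (∀ y, 0 ≤ f y) →
      (∀ y ≠ 0, Laplacian.laplacian u y ≤ -(f y)) → ∀ x, ‖x‖ = 4 →
      (∫ y in ann n 4, u y) ≤ C * (u x + 1) ∧ (∫ y in ann n 4, f y) ≤ C * (u x + 1) := by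
  set N₀ := ((1 / 4 : ℝ)) ^ ((2 - (n : ℝ)) / 2)
  set I : ℝ := ∫ y : EuclideanSpace ℝ (Fin n), avgW y
  have hN₀0 : 0 ≤ N₀ := by positivity
  have hI : 0 < I := integral_avgW_pos
  refine ⟨(64 / 27 * 16 ^ n + 2 * (2048 / 81) * 32 ^ n) * I * (N₀ + 2), by positivity, ?_⟩
  intro u f huc hu hu0 hfc hf0 equ x hx
  obtain ⟨U, hU, hU0, hUx, hUl, hUu, hUf⟩ := exists_trunc_ge hn huc hu hu0 hf0 equ
    (by linarith : 1 / 2 ≤ ‖x‖) 4
  have hUc := hU.continuous
  have hLc := continuous_laplacian hU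
  have hUI : U x * I ≤ (N₀ + 2) * I * (u x + 1) := by
    have : U x ≤ (N₀ + 2) * (u x + 1) := by nlinarith [hu0 x]
    nlinarith
  have hd : ∀ R, HasDerivAt (avg U x) (R * ∫ y, Laplacian.laplacian U (x + R • y) * avgPot y) R :=
    hasDerivAt_avg hU x
  have hanti : AntitoneOn (avg U x) (Ici 0) :=
    antitoneOn_of_hasDerivWithinAt_nonpos (convex_Ici 0)
      (fun R _ => (hd R).continuousAt.continuousWithinAt) (fun R _ => (hd R).hasDerivWithinAt)
      fun R hR => mul_nonpos_of_nonneg_of_nonpos (interior_subset hR : R ∈ Ici (0 : ℝ))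
        (integral_nonpos fun y => mul_nonpos_of_nonpos_of_nonneg (hUl _) (avgPot_nonneg y))
  have h16 : avg U x 16 ≤ U x * I := by
    rw [← avg_zero]
    exact hanti (mem_Ici.2 le_rfl) (by norm_num) (by norm_num)
  have hball : ∀ t : ℝ, 16 ≤ t → ∀ z ∈ ann n 4, ‖t⁻¹ • (z - x)‖ ≤ 1 / 2 := by
    intro t ht z hz
    rw [norm_smul, Real.norm_eq_abs, abs_of_nonneg (by positivity), inv_mul_le_iff₀ (by linarith)]
    linarith [norm_sub_le z x, hz.2]
  have hback : ∀ t : ℝ, 0 < t → ∀ y : EuclideanSpace ℝ (Fin n), t⁻¹ • (x + t • y - x) = y := by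
    intro t ht y
    rw [add_sub_cancel_left, smul_smul, inv_mul_cancel₀ ht.ne', one_smul]
  constructor
  · have h : (16 ^ n : ℝ)⁻¹ * (27 / 64 * ∫ y in ann n 4, u y) ≤ avg U x 16 := by
      have e : avg U x 16 =
          (16 ^ n : ℝ)⁻¹ * ∫ z, U z * avgW ((16 : ℝ)⁻¹ • (z - x)) := by
        rw [← integral_comp_affine _ x (by norm_num : (0 : ℝ) ≤ 16)]
        simp only [hback 16 (by norm_num)]
        rfl
      rw [e, ← integral_const_mul, ← integral_indicator (measurableSet_ann n 4)]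
      refine mul_le_mul_of_nonneg_left (integral_mono_of_nonneg (Eventually.of_forall fun z =>
        indicator_nonneg (fun w _ => by have := hu0 w; positivity) z) ?_
        (Eventually.of_forall fun z => ?_)) (by positivity)
      · refine (hUc.mul (continuous_avgW.comp (by fun_prop))).integrable_of_hasCompactSupport ?_
        refine HasCompactSupport.intro (isCompact_closedBall x 16) fun z hz => ?_
        simp only [mem_closedBall, dist_eq_norm, not_le] at hz
        show U z * avgW _ = 0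
        rw [avgW_eq_zero, mul_zero]
        rw [norm_smul, Real.norm_eq_abs, abs_of_nonneg (by norm_num : (0 : ℝ) ≤ 16⁻¹),
          le_inv_mul_iff₀ (by norm_num)]
        linarith
      · refine indicator_apply_le' (fun hw => ?_) (fun _ => mul_nonneg (hU0 z) (avgW_nonneg _))
        rw [mul_comm]
        exact mul_le_mul (hUu z hw.2) (weight_lower (hball 16 le_rfl z hw)).1 (by norm_num) (hU0 z)
    rw [inv_mul_le_iff₀ (by positivity)] at h
    have h2 : (0 : ℝ) ≤ 2 * (2048 / 81) * 32 ^ n * I * (N₀ + 2) * (u x + 1) := by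
      have := hu0 x; positivity
    have h3 := mul_le_mul_of_nonneg_left (h16.trans hUI) (by positivity : (0 : ℝ) ≤ 16 ^ n)
    nlinarith
  · set J := ∫ y in ann n 4, f y
    have hJ : 0 ≤ J := setIntegral_nonneg (measurableSet_ann n 4) fun y _ => hf0 y
    have hder : ∀ t ∈ interior (Icc (16 : ℝ) 32),
        deriv (avg U x) t ≤ -(16 * ((32 ^ n : ℝ)⁻¹ * (81 / 2048 * (J / 2)))) := by
      intro t ht
      rw [interior_Icc] at ht
      obtain ⟨ht1, ht2⟩ := ht
      have ht0 : 0 < t := by linarith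
      have key : (t ^ n)⁻¹ * (81 / 2048 * (J / 2)) ≤
          ∫ y, -(Laplacian.laplacian U (x + t • y)) * avgPot y := by
        have e : ∫ y, -(Laplacian.laplacian U (x + t • y)) * avgPot y =
            (t ^ n)⁻¹ * ∫ z, -(Laplacian.laplacian U z) * avgPot (t⁻¹ • (z - x)) := by
          rw [← integral_comp_affine _ x ht0.le]
          simp only [hback t ht0]
        rw [e, show (81 / 2048 : ℝ) * (J / 2) = ∫ y in ann n 4, 81 / 2048 * (f y / 2) by
          rw [integral_const_mul, integral_div], ← integral_indicator (measurableSet_ann n 4)]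
        refine mul_le_mul_of_nonneg_left (integral_mono_of_nonneg (Eventually.of_forall fun z =>
          indicator_nonneg (fun w _ => by have := hf0 w; positivity) z) ?_
          (Eventually.of_forall fun z => ?_)) (by positivity)
        · refine (hLc.neg.mul (continuous_avgPot.comp
            (by fun_prop))).integrable_of_hasCompactSupport ?_
          refine HasCompactSupport.intro (isCompact_closedBall x t) fun z hz => ?_
          simp only [mem_closedBall, dist_eq_norm, not_le] at hz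
          show -(Laplacian.laplacian U z) * avgPot _ = 0
          rw [avgPot_eq_zero, mul_zero]
          rw [norm_smul, Real.norm_eq_abs, abs_of_nonneg (by positivity : (0 : ℝ) ≤ t⁻¹),
            le_inv_mul_iff₀ ht0]
          linarith
        · refine indicator_apply_le' (fun hw => ?_)
            (fun _ => mul_nonneg (neg_nonneg.2 (hUl z)) (avgPot_nonneg _))
          rw [mul_comm]
          exact mul_le_mul (le_neg.1 (hUf z hw.1 hw.2)) (weight_lower (hball t ht1.le z hw)).2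
            (by norm_num) (neg_nonneg.2 (hUl z))
      rw [(hd t).deriv]
      simp only [neg_mul, integral_neg] at key
      have h1 : (32 ^ n : ℝ)⁻¹ * (81 / 2048 * (J / 2)) ≤ (t ^ n)⁻¹ * (81 / 2048 * (J / 2)) :=
        mul_le_mul_of_nonneg_right (inv_anti₀ (by positivity) (pow_le_pow_left₀ ht0.le ht2.le n))
          (by positivity)
      have h2 : (0 : ℝ) ≤ (32 ^ n : ℝ)⁻¹ * (81 / 2048 * (J / 2)) := by positivity
      nlinarith
    have hmvt := (convex_Icc (16 : ℝ) 32).image_sub_le_mul_sub_of_deriv_le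
      (fun R _ => (hd R).continuousAt.continuousWithinAt)
      (fun R _ => (hd R).differentiableAt.differentiableWithinAt) hder 16 (by norm_num) 32
      (by norm_num) (by norm_num)
    have h32 : 0 ≤ avg U x 32 :=
      integral_nonneg fun y => mul_nonneg (hU0 _) (avgW_nonneg y)
    have h : (32 ^ n : ℝ)⁻¹ * (81 / 2048 * (J / 2)) * 256 ≤ (N₀ + 2) * I * (u x + 1) := by
      linarith
    rw [mul_assoc, inv_mul_le_iff₀ (by positivity)] at h
    have h2 : (0 : ℝ) ≤ 64 / 27 * 16 ^ n * I * (N₀ + 2) * (u x + 1) := by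
      have := hu0 x; positivity
    have h4 : (0 : ℝ) ≤ 32 ^ n * I * (N₀ + 2) * (u x + 1) := by
      have := hu0 x; positivity
    nlinarith

/-- Some point of norm `4` carries uniformly bounded values. -/
theorem sphere_value_bound (hn : 3 ≤ n) {p q : ℝ} (hp : 0 < p) (hq : 0 < q) (hpq : 1 < p * q) :
    ∃ C : ℝ, 0 ≤ C ∧ ∀ u v : EuclideanSpace ℝ (Fin n) → ℝ, IsSol p q u v →
      ∃ x, ‖x‖ = 4 ∧ u x ≤ C := by
  have hdim : 2 ≤ Module.finrank ℝ (EuclideanSpace ℝ (Fin n)) := by
    rw [finrank_euclideanSpace_fin]; omega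
  set d : ℝ := Module.finrank ℝ (EuclideanSpace ℝ (Fin n)) + 1
  set a₁ : ℝ := 3 / (4 * d) * ((1 / 4 : ℝ) ^ d) ^ p * 4 ^ 2 with ha₁
  set a₂ : ℝ := 3 / (4 * d) * ((1 / 4 : ℝ) ^ d) ^ q * 4 ^ 2 with ha₂
  have hd : 0 < d := by positivity
  have h1 : 0 < a₁ := by positivity
  have h2 : 0 < a₂ := by positivity
  refine ⟨(1 / (a₁ * a₂ ^ p)) ^ (1 / (p * q - 1)), by positivity, fun u v h => ?_⟩
  have : Nontrivial (EuclideanSpace ℝ (Fin n)) :=
    Module.nontrivial_of_finrank_pos (R := ℝ) (by omega)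
  obtain ⟨xu, hxu, hxu'⟩ := (isCompact_closedBall (0 : EuclideanSpace ℝ (Fin n)) 4).exists_isMinOn
    ⟨0, by simp⟩ h.contU.continuousOn
  obtain ⟨xv, hxv, hxv'⟩ := (isCompact_closedBall (0 : EuclideanSpace ℝ (Fin n)) 4).exists_isMinOn
    ⟨0, by simp⟩ h.contV.continuousOn
  have hxu0 : ‖xu‖ ≤ 4 := by simpa using hxu
  have hxv0 : ‖xv‖ ≤ 4 := by simpa using hxv
  have lu : ∀ x, x ≠ 0 → Laplacian.laplacian u x < 0 := fun x hx => by
    rw [h.eqU x hx]; exact neg_neg_of_pos (Real.rpow_pos_of_pos (h.posV x) p)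
  have lv : ∀ x, x ≠ 0 → Laplacian.laplacian v x < 0 := fun x hx => by
    rw [h.eqV x hx]; exact neg_neg_of_pos (Real.rpow_pos_of_pos (h.posU x) q)
  have g1 : a₁ * v xv ^ p ≤ u xu :=
    Super.gain hdim h.contU h.contV h.smoothU h.smoothV h.posU h.posV lv hp
      (fun x hx => (h.eqU x hx).le) (by norm_num) (h.posV xv)
      (fun z hz => hxv' (by simpa using hz)) hxu0
  have g2 : a₂ * u xu ^ q ≤ v xv :=
    Super.gain hdim h.contV h.contU h.smoothV h.smoothU h.posV h.posU lu hq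
      (fun x hx => (h.eqV x hx).le) (by norm_num) (h.posU xu)
      (fun z hz => hxu' (by simpa using hz)) hxv0
  have hu := h.posU xu
  have g3 : a₁ * a₂ ^ p * u xu ^ (p * q) ≤ u xu := by
    refine le_trans (le_of_eq ?_) ((mul_le_mul_of_nonneg_left
      (Real.rpow_le_rpow (by positivity) g2 hp.le) h1.le).trans g1)
    rw [Real.mul_rpow h2.le (by positivity), ← Real.rpow_mul hu.le, mul_comm q p, mul_assoc]
  have g4 : u xu ≤ (1 / (a₁ * a₂ ^ p)) ^ (1 / (p * q - 1)) := by
    rw [one_div (p * q - 1), Real.le_rpow_inv_iff_of_pos hu.le (by positivity) (by linarith),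
      le_div_iff₀ (by positivity), Real.rpow_sub hu, Real.rpow_one, div_mul_eq_mul_div,
      div_le_one hu]
    linarith
  obtain ⟨x, hx, hxmin⟩ := (isCompact_sphere (0 : EuclideanSpace ℝ (Fin n)) 4).exists_isMinOn
    (NormedSpace.sphere_nonempty.2 (by norm_num)) h.contU.continuousOn
  refine ⟨x, by simpa using hx, le_trans ?_ g4⟩
  exact Super.min_principle_puncture hdim (isCompact_closedBall _ _) isOpen_ball
    ball_subset_closedBall h.contU.continuousOn
    (fun y _ hy => h.smoothU.contDiffAt (isOpen_compl_singleton.mem_nhds hy))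
    (fun y _ hy => lu y hy) (fun y hy hy' => hxmin (by
      simp only [mem_closedBall, mem_ball, not_lt] at hy hy'
      simpa using le_antisymm hy hy')) xu hxu

/-- Bounds on the annulus `1/2 ≤ ‖x‖ ≤ 4`, uniform over all solutions. -/
theorem ann_bounds (hn : 3 ≤ n) {p q : ℝ} (hp : 0 < p) (hq : 0 < q) (hpq : 1 < p * q) :
    ∃ C : ℝ, 0 ≤ C ∧ ∀ u v : EuclideanSpace ℝ (Fin n) → ℝ, IsSol p q u v →
      (∫ y in ann n 4, u y) ≤ C ∧ (∫ y in ann n 4, v y) ≤ C ∧
      (∫ y in ann n 4, v y ^ p) ≤ C ∧ (∫ y in ann n 4, u y ^ q) ≤ C := by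
  obtain ⟨C₀, hC₀, hb⟩ := point_bounds hn
  obtain ⟨C₁, hC₁, hs1⟩ := sphere_value_bound hn hp hq hpq
  obtain ⟨C₂, hC₂, hs2⟩ := sphere_value_bound hn hq hp (by rwa [mul_comm])
  refine ⟨C₀ * (C₁ + C₂ + 1), by positivity, fun u v h => ?_⟩
  have key : ∀ {p' q' : ℝ} {u' v' : EuclideanSpace ℝ (Fin n) → ℝ} (C : ℝ), IsSol p' q' u' v' →
      C ≤ C₁ + C₂ → (∃ x, ‖x‖ = 4 ∧ u' x ≤ C) →
      (∫ y in ann n 4, u' y) ≤ C₀ * (C₁ + C₂ + 1) ∧
        (∫ y in ann n 4, v' y ^ p') ≤ C₀ * (C₁ + C₂ + 1) := by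
    intro p' q' u' v' C h' hC ⟨x, hx, hux⟩
    have hfc : Continuous fun y => v' y ^ p' :=
      h'.contV.rpow_const fun y => Or.inl (h'.posV y).ne'
    obtain ⟨r1, r2⟩ := hb u' (fun y => v' y ^ p') h'.contU
      (fun y hy => h'.smoothU.contDiffAt (isOpen_compl_singleton.mem_nhds hy))
      (fun y => (h'.posU y).le) hfc (fun y => Real.rpow_nonneg (h'.posV y).le _)
      (fun y hy => (h'.eqU y hy).le) x hx
    have : C₀ * (u' x + 1) ≤ C₀ * (C₁ + C₂ + 1) := by gcongr; linarith
    exact ⟨r1.trans this, r2.trans this⟩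
  obtain ⟨a, b⟩ := key C₁ h (by linarith) (hs1 u v h)
  obtain ⟨c, d⟩ := key C₂ h.swap (by linarith) (hs2 v u h.swap)
  exact ⟨a, c, b, d⟩

end Vale.Agent.P100.Souplet
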