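import Mathlib
import Vale.Agent.P100.GoodRadius
import Vale.Agent.P100.UnitBound

/-!
# Good radii in an interval and the energy inside them

The variants for an interval of radii `[r, r + h/2]` of `exists_good_radii` and
`unit_bound_of_good_radii`.
-/

open MeasureTheory Filter Set Metric Topology
open scoped ENNReal NNReal

namespace Vale.Agent.P100.Souplet

variable {n : ℕ} {p q : ℝ}

/-- A compact set of radii filling a quarter of `[a, b]` where `G` is below four times its mean. -/
theorem exists_radii {G : ℝ → ℝ≥0∞} (hG : Measurable G) {a b : ℝ} (hab : a < b) {D : ℝ≥0∞}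
    (hD0 : D ≠ 0) (hD : D ≠ ⊤) (hint : ∫⁻ r in Icc a b, G r ≤ D) :
    ∃ K : Set ℝ, IsCompact K ∧ K ⊆ Icc a b ∧ (b - a) / 2 ≤ volume.real K ∧
      ∀ r ∈ K, G r ≤ ENNReal.ofReal (4 / (b - a)) * D := by
  set M := ENNReal.ofReal (4 / (b - a)) * D with hM
  have hl : 0 < b - a := by linarith
  have hM0 : M ≠ 0 := mul_ne_zero (by simp [hl]) hD0
  have hMt : M ≠ ⊤ := ENNReal.mul_ne_top ENNReal.ofReal_ne_top hD
  set bad : Set ℝ := Icc a b ∩ {r | M < G r}
  have hbm : MeasurableSet bad :=
    measurableSet_Icc.inter (measurableSet_lt measurable_const hG)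
  have hB : volume.real bad ≤ (b - a) / 4 := by
    have h1 : M * volume bad ≤ D := by
      rw [← setLIntegral_const]
      exact (setLIntegral_mono hG fun r hr => hr.2.le).trans
        ((lintegral_mono_set inter_subset_left).trans hint)
    have h2 : volume bad ≤ ENNReal.ofReal ((b - a) / 4) := by
      rw [← ENNReal.mul_le_mul_iff_right hM0 hMt]
      refine h1.trans (le_of_eq ?_)
      rw [hM, mul_right_comm, ← ENNReal.ofReal_mul (by positivity)]
      rw [show 4 / (b - a) * ((b - a) / 4) = 1 by field_simp, ENNReal.ofReal_one, one_mul]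
    exact ENNReal.toReal_le_of_le_ofReal (by linarith) h2
  set A := Icc a b \ bad
  have hAm : MeasurableSet A := measurableSet_Icc.diff hbm
  have hAfin : volume A ≠ ⊤ := ((measure_mono sdiff_subset).trans_lt measure_Icc_lt_top).ne
  have hA : 3 * (b - a) / 4 ≤ volume.real A := by
    have h1 : volume.real (Icc a b) ≤ volume.real A + volume.real bad :=
      le_trans (measureReal_mono (fun r hr => by
        by_cases h : r ∈ bad
        · exact Or.inr h
        · exact Or.inl ⟨hr, h⟩)
        (measure_union_ne_top hAfin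
          ((measure_mono inter_subset_left).trans_lt measure_Icc_lt_top).ne))
        (measureReal_union_le _ _)
    rw [Real.volume_real_Icc, max_eq_left hl.le] at h1
    linarith
  obtain ⟨K, hKA, hK, hlt⟩ := hAm.exists_isCompact_lt_add hAfin
    (ε := ENNReal.ofReal ((b - a) / 4)) (by simp [hl])
  refine ⟨K, hK, hKA.trans sdiff_subset, ?_, fun r hr => ?_⟩
  · have h := ENNReal.toReal_mono (ENNReal.add_ne_top.2 ⟨hK.measure_lt_top.ne, by simp⟩) hlt.le
    rw [ENNReal.toReal_add hK.measure_lt_top.ne (by simp),
      ENNReal.toReal_ofReal (by linarith)] at h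
    simp only [← measureReal_def] at h
    linarith
  · by_contra h
    exact (hKA hr).2 ⟨(hKA hr).1, not_le.1 h⟩

/-- A bound on a set of spheres controls the energy on the ball inside them. -/
theorem ball_bound_of_good_radii {u v : (EuclideanSpace ℝ (Fin n)) → ℝ} (hn : 3 ≤ n) (hp : 0 < p) (hq : 0 < q)
    (hsub : ((n : ℝ) - 2) < (n : ℝ) / (p + 1) + (n : ℝ) / (q + 1)) (h : IsSol p q u v)
    (hgu : IntegrableOn (fun x => ‖fderiv ℝ u x‖ ^ 2) (closedBall 0 1))
    (hgv : IntegrableOn (fun x => ‖fderiv ℝ v x‖ ^ 2) (closedBall 0 1))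
    {K : Set ℝ} (hK : IsCompact K) {r : ℝ} (hr1 : 1 ≤ r) (hK' : K ⊆ Icc r 2)
    {D : ℝ} (hD0 : 0 ≤ D)
    (hD : ∀ r ∈ K, slice volume (fun x => ENNReal.ofReal (sphereDens p q u v x)) r ≤
      ENNReal.ofReal D) :
    volume.real K * ∫ x in closedBall (0 : (EuclideanSpace ℝ (Fin n))) r, energy p q u v x ≤
      pohoConst n p q * 2 ^ (n - 1) / margin n p q * D := by
  have hK2 : K ⊆ Icc 1 2 := hK'.trans (Icc_subset_Icc hr1 le_rfl)
  classical
  set m := margin n p q with hm
  have hm0 : 0 < m := by rw [hm, margin]; linarith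
  set a₁ := (n : ℝ) / (p + 1) - m with ha₁
  set a₂ := (n : ℝ) / (q + 1) - m with ha₂
  have ha : a₁ + a₂ = (Fintype.card (Fin n) : ℝ) - 2 := by
    rw [Fintype.card_fin, ha₁, ha₂, hm, margin]; ring
  set A := pohoConst n p q with hA
  have hA0 : 0 ≤ A := by rw [hA, pohoConst]; positivity
  have : Nontrivial (EuclideanSpace ℝ (Fin n)) := Module.nontrivial_of_finrank_pos (R := ℝ)
    (by rw [finrank_euclideanSpace_fin]; omega)
  -- bounds on the unit ball
  obtain ⟨Mu, hMu⟩ := (isCompact_closedBall (0 : (EuclideanSpace ℝ (Fin n))) 1).exists_bound_of_continuousOn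
    h.contU.continuousOn
  obtain ⟨Mv, hMv⟩ := (isCompact_closedBall (0 : (EuclideanSpace ℝ (Fin n))) 1).exists_bound_of_continuousOn
    h.contV.continuousOn
  obtain ⟨Me, hMe⟩ := (isCompact_closedBall (0 : (EuclideanSpace ℝ (Fin n))) 1).exists_bound_of_continuousOn
    h.continuous_energy.continuousOn
  have hMu0 : 0 ≤ Mu := (norm_nonneg _).trans (hMu 0 (by simp))
  have hMv0 : 0 ≤ Mv := (norm_nonneg _).trans (hMv 0 (by simp))
  have hMe0 : 0 ≤ Me := (norm_nonneg _).trans (hMe 0 (by simp))
  set hh : (EuclideanSpace ℝ (Fin n)) → ℝ := fun x => ‖fderiv ℝ u x‖ ^ 2 + ‖fderiv ℝ v x‖ ^ 2 + 1 with hhh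
  have hh1 : IntegrableOn hh (closedBall 0 1) := (hgu.add hgv).add
    (integrableOn_const (measure_closedBall_lt_top).ne)
  set c₁ : ℝ := n * (3 * n + |a₁| * Mv + |a₂| * Mu + 2 * Me) with hc₁
  have hc₁0 : 0 ≤ c₁ := by positivity
  set T : Set (EuclideanSpace ℝ (Fin n)) := (fun y : (EuclideanSpace ℝ (Fin n)) => ‖y‖) ⁻¹' K with hT
  have hTm : MeasurableSet T := measurable_norm hK.isClosed.measurableSet
  have hTb : T ⊆ closedBall (0 : (EuclideanSpace ℝ (Fin n))) 2 := fun x hx => by simpa using (hK2 hx).2
  have hTc : IsCompact T := (isCompact_closedBall (0 : (EuclideanSpace ℝ (Fin n))) 2).of_isClosed_subset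
    (hK.isClosed.preimage continuous_norm) hTb
  have hT0 : T ⊆ ({0}ᶜ : Set (EuclideanSpace ℝ (Fin n))) := fun x hx h0 => by
    have := (hK2 hx).1
    simp [mem_singleton_iff.1 h0] at this
    linarith
  obtain ⟨hcu, hcv⟩ := h.continuousOn_fderiv
  have hdint : IntegrableOn (sphereDens p q u v) T :=
    ((((h.continuous_energy.continuousOn.add (hcu.mul hcv)).add
      (h.contV.continuousOn.mul hcu)).add (h.contU.continuousOn.mul hcv)).mono
        hT0).integrableOn_compact hTc
  have hdT : ∫ x in T, sphereDens p q u v x ≤ 2 ^ (n - 1) * D := by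
    rw [integral_eq_lintegral_of_nonneg_ae (ae_of_all _ fun x => h.sphereDens_nonneg x)
      hdint.aestronglyMeasurable]
    refine ENNReal.toReal_le_of_le_ofReal (by positivity) ?_
    refine (setLIntegral_norm_mem_le volume (g := fun x => ENNReal.ofReal (sphereDens p q u v x))
      h.measurable_sphereDens.ennreal_ofReal hK.isClosed.measurableSet hK2 hD).trans ?_
    rw [finrank_euclideanSpace_fin, ENNReal.ofReal_mul (by positivity)]
  -- the estimate for a fixed inner layer
  have main : ∀ ε : ℝ, 0 < ε → 2 * ε < 1 →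
      m * volume.real K * ((∫ x in closedBall (0 : (EuclideanSpace ℝ (Fin n))) r, energy p q u v x) -
        ∫ x in closedBall (0 : (EuclideanSpace ℝ (Fin n))) (2 * ε), energy p q u v x) ≤
      A * (2 ^ (n - 1) * D) + c₁ * (∫ x in closedBall (0 : (EuclideanSpace ℝ (Fin n))) (2 * ε), hh x) +
        c₁ * (volume.real (closedBall (0 : (EuclideanSpace ℝ (Fin n))) (2 * ε)) * (ε⁻¹) ^ 2) := by
    intro ε hε hε2
    set φ : (EuclideanSpace ℝ (Fin n)) → ℝ := cutK K ε with hφ
    set S : Set (EuclideanSpace ℝ (Fin n)) := closedBall (0 : (EuclideanSpace ℝ (Fin n))) (2 * ε) with hS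
    have hSm : MeasurableSet S := isClosed_closedBall.measurableSet
    have hS1 : S ⊆ closedBall (0 : (EuclideanSpace ℝ (Fin n))) 1 := closedBall_subset_closedBall hε2.le
    set X := pohoField (fun i : Fin n => EuclideanSpace.single i (1 : ℝ))
      (fun i => EuclideanSpace.proj i) u v (fun t => t ^ (p + 1) / (p + 1))
      (fun t => t ^ (q + 1) / (q + 1)) a₁ a₂
    have key := pohozaev_rpow (μ := (volume : Measure (EuclideanSpace ℝ (Fin n)))) isOpen_compl_singleton
      (fun i : Fin n => EuclideanSpace.single i (1 : ℝ)) (fun i => EuclideanSpace.proj i)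
      (fun i j => by simp [PiLp.single_apply, eq_comm])
      (lipschitz_cutK hK hε : LipschitzWith _ φ) (hasCompactSupport_cutK hK2 hε) (tsupport_cutK hK2 hε)
      h.smoothU h.smoothV (by linarith : p + 1 ≠ 0) (by linarith : q + 1 ≠ 0)
      (fun x _ => h.posU x) (fun x _ => h.posV x)
      (fun x hx => by rw [← laplacian_eq_sum_single]; exact h.eqU x hx)
      (fun x hx => by rw [← laplacian_eq_sum_single]; exact h.eqV x hx) a₁ a₂ ha
    have hlhs : ∀ x, φ x * (((Fintype.card (Fin n) : ℝ) / (p + 1) - a₁) * (v x) ^ (p + 1) +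
        ((Fintype.card (Fin n) : ℝ) / (q + 1) - a₂) * (u x) ^ (q + 1)) =
        m * (φ x * energy p q u v x) := fun x => by
      rw [Fintype.card_fin, ha₁, ha₂, energy]; ring
    simp only [← hφ, hlhs, integral_const_mul] at key
    -- lower bound
    have hφc : Continuous φ := (lipschitz_cutK hK hε).continuous
    have hint : Integrable (fun x => φ x * energy p q u v x) :=
      (hφc.mul h.continuous_energy).integrable_of_hasCompactSupport
        (hasCompactSupport_cutK hK2 hε).mul_right
    have hR : IntegrableOn (energy p q u v) (closedBall (0 : (EuclideanSpace ℝ (Fin n))) r \ S) :=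
      (h.continuous_energy.continuousOn.integrableOn_compact
        (isCompact_closedBall (0 : (EuclideanSpace ℝ (Fin n))) r)).mono_set sdiff_subset
    have hlow : volume.real K * ((∫ x in closedBall (0 : (EuclideanSpace ℝ (Fin n))) r, energy p q u v x) -
        ∫ x in S, energy p q u v x) ≤ ∫ x, φ x * energy p q u v x := by
      rw [← setIntegral_sdiff₀ hSm.nullMeasurableSet
        (h.continuous_energy.continuousOn.integrableOn_compact (isCompact_closedBall (0 : (EuclideanSpace ℝ (Fin n))) r))
        (hS1.trans (closedBall_subset_closedBall hr1)), ← integral_const_mul,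
        ← integral_indicator (isClosed_closedBall.measurableSet.diff hSm)]
      refine integral_mono (IntegrableOn.integrable_indicator (hR.const_mul _)
        (isClosed_closedBall.measurableSet.diff hSm)) hint fun x => ?_
      by_cases hx : x ∈ closedBall (0 : (EuclideanSpace ℝ (Fin n))) r \ S
      · rw [indicator_of_mem hx]
        obtain ⟨hx1, hx2⟩ := hx
        simp only [hS, mem_closedBall, dist_zero_right, not_le] at hx1 hx2
        refine mul_le_mul_of_nonneg_right ?_ (h.energy_nonneg x)
        rw [hφ, cutK_eq hK2 hε hx2.le]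
        refine le_of_eq ?_
        unfold tailLen
        rw [inter_eq_left.2 fun t ht => mem_Ici.2 (hx1.trans (hK' ht).1)]
      · rw [indicator_of_notMem hx]
        exact mul_nonneg (cutK_nonneg _ _ _) (h.energy_nonneg x)
    -- upper bound
    set Ψ : (EuclideanSpace ℝ (Fin n)) → ℝ := fun x => T.indicator (fun y => A * sphereDens p q u v y) x +
      S.indicator (fun y => c₁ * hh y + c₁ * (ε⁻¹) ^ 2) x with hΨ
    have hSi : IntegrableOn (fun y => c₁ * hh y + c₁ * (ε⁻¹) ^ 2) S :=
      ((hh1.mono_set hS1).const_mul c₁).add (integrableOn_const measure_closedBall_lt_top.ne)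
    have hΨi : Integrable Ψ :=
      (IntegrableOn.integrable_indicator (hdint.const_mul A) hTm).add (hSi.integrable_indicator hSm)
    have hpt : ∀ x, ‖∑ i, lineDeriv ℝ φ x (EuclideanSpace.single i 1) * X i x‖ ≤ Ψ x := by
      intro x
      have hb : ‖∑ i, lineDeriv ℝ φ x (EuclideanSpace.single i 1) * X i x‖ ≤
          (T.indicator (fun _ => (1 : ℝ)) x + S.indicator (fun _ => ε⁻¹) x) *
            ∑ i, |X i x| := by
        rw [Real.norm_eq_abs, Finset.mul_sum]
        refine (Finset.abs_sum_le_sum_abs _ _).trans (Finset.sum_le_sum fun i _ => ?_)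
        rw [abs_mul]
        refine mul_le_mul_of_nonneg_right ?_ (abs_nonneg _)
        simpa using abs_lineDeriv_cutK hK hK2 hε hε2 x (EuclideanSpace.single i (1 : ℝ))
      refine hb.trans ?_
      rw [add_mul, hΨ]
      refine add_le_add ?_ ?_
      · by_cases hx : x ∈ T
        · rw [indicator_of_mem hx, indicator_of_mem hx, one_mul, hA, pohoConst, ← hm, ← ha₁, ← ha₂]
          exact annulus_bound h hp hq a₁ a₂ (hK2 hx).2
        · simp [indicator_of_notMem hx]
      · by_cases hx : x ∈ S
        · rw [indicator_of_mem hx, indicator_of_mem hx, ← mul_add]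
          exact layer_bound h hp hq a₁ a₂ hε (by simpa [hS] using hx)
            ((le_abs_self _).trans (hMu x (hS1 hx))) ((le_abs_self _).trans (hMv x (hS1 hx)))
            ((le_abs_self _).trans (hMe x (hS1 hx)))
        · simp [indicator_of_notMem hx]
    have hup := norm_integral_le_of_norm_le hΨi (ae_of_all _ hpt)
    rw [hΨ, integral_add (IntegrableOn.integrable_indicator (hdint.const_mul A) hTm)
      (hSi.integrable_indicator hSm), integral_indicator hTm, integral_indicator hSm,
      integral_add ((hh1.mono_set hS1).const_mul c₁)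
        (integrableOn_const measure_closedBall_lt_top.ne),
      integral_const_mul, integral_const_mul, setIntegral_const, smul_eq_mul] at hup
    rw [Real.norm_eq_abs] at hup
    have hT' := mul_le_mul_of_nonneg_left hdT hA0
    have hl := mul_le_mul_of_nonneg_left hlow hm0.le
    have := (abs_le.1 hup).1
    nlinarith
  -- the limit
  set εk : ℕ → ℝ := fun k => 1 / ((k : ℝ) + 3) with hεk
  have hεpos : ∀ k, 0 < εk k := fun k => by positivity
  have hεlt : ∀ k, 2 * εk k < 1 := fun k => by
    have : (0 : ℝ) ≤ k := k.cast_nonneg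
    rw [hεk, mul_one_div, div_lt_one (by positivity)]; linarith
  have hlim0 : Tendsto εk atTop (𝓝 0) := by
    have := (tendsto_natCast_atTop_atTop (R := ℝ)).atTop_add (tendsto_const_nhds (x := (3 : ℝ)))
    simp only [hεk, one_div]
    exact this.inv_tendsto_atTop
  set Sk : ℕ → Set (EuclideanSpace ℝ (Fin n)) := fun k => closedBall (0 : (EuclideanSpace ℝ (Fin n))) (2 * εk k)
  have hanti : Antitone Sk := fun j k hjk => closedBall_subset_closedBall (by
    simp only [hεk]; gcongr)
  have hvol : volume (⋂ k, Sk k) = 0 := by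
    have : (⋂ k, Sk k) ⊆ {0} := fun x hx => by
      simp only [Sk, mem_iInter, mem_closedBall, dist_zero_right] at hx
      have : ‖x‖ ≤ 0 := le_of_tendsto_of_tendsto tendsto_const_nhds
        (by simpa using hlim0.const_mul 2) (Eventually.of_forall hx)
      simpa using this
    exact measure_mono_null this (measure_singleton 0)
  have htend : ∀ g : (EuclideanSpace ℝ (Fin n)) → ℝ, IntegrableOn g (closedBall 0 1) →
      Tendsto (fun k => ∫ x in Sk k, g x) atTop (𝓝 0) := fun g hg => by
    have := tendsto_setIntegral_of_antitone (fun k => isClosed_closedBall.measurableSet) hanti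
      ⟨0, hg.mono_set (closedBall_subset_closedBall (hεlt 0).le)⟩
    rwa [setIntegral_measure_zero g hvol] at this
  have hpow : Tendsto (fun k => volume.real (Sk k) * ((εk k)⁻¹) ^ 2) atTop (𝓝 0) := by
    have h' : Tendsto (fun k => 2 ^ n * volume.real (closedBall (0 : (EuclideanSpace ℝ (Fin n))) 1) * (εk k) ^ (n - 2))
        atTop (𝓝 0) := by
      simpa [zero_pow (by omega : n - 2 ≠ 0)] using
        (hlim0.pow (n - 2)).const_mul (2 ^ n * volume.real (closedBall (0 : (EuclideanSpace ℝ (Fin n))) 1))
    refine h'.congr fun k => ?_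
    have e : εk k ^ n = εk k ^ (n - 2) * εk k ^ 2 := by
      rw [← pow_add, Nat.sub_add_cancel (by omega : 2 ≤ n)]
    simp only [Sk]
    rw [Measure.real, Measure.real, Measure.addHaar_closedBall' volume (0 : (EuclideanSpace ℝ (Fin n)))
      (mul_pos two_pos (hεpos k)).le, finrank_euclideanSpace_fin, ENNReal.toReal_mul,
      ENNReal.toReal_ofReal (by have := hεpos k; positivity), mul_pow, e]
    have := (hεpos k).ne'
    field_simp
  have hfin : m * volume.real K *
      ((∫ x in closedBall (0 : (EuclideanSpace ℝ (Fin n))) r, energy p q u v x) - 0) ≤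
      A * (2 ^ (n - 1) * D) + c₁ * 0 + c₁ * 0 :=
    le_of_tendsto_of_tendsto
      ((tendsto_const_nhds.sub (htend _ (h.continuous_energy.continuousOn.integrableOn_compact
        (isCompact_closedBall (0 : (EuclideanSpace ℝ (Fin n))) 1)))).const_mul _)
      ((tendsto_const_nhds.add ((htend _ hh1).const_mul c₁)).add (hpow.const_mul c₁))
      (Eventually.of_forall fun k => main (εk k) (hεpos k) (hεlt k))
  rw [mul_comm (A * 2 ^ (n - 1) / m) D, mul_div, le_div_iff₀ hm0]
  nlinarith

end Vale.Agent.P100.Souplet
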