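import Mathlib
import Vale.Agent.P100.GoodRadius

/-!
# A potential estimate on spheres

For `f` supported in `B(0,4)` the potential `∫ |x-y|^(-m) f(y)` satisfies
`∫ ‖T f‖_{L^σ(|x|=ρ)} dρ ≤ C ‖f‖_{L^t}` whenever `1/σ = 1/t + 1/s - 1` and `m s < n - 1 + s`.

Proof: one Hölder inequality with three factors in `y`, with the weight `A = 1 + |ρ-|y||^(-β)`,
`β < 1`, which dominates the `L^s` norm of the kernel on the spheres.
-/

open MeasureTheory Set Metric Filter Topology
open scoped ENNReal NNReal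

noncomputable section

namespace Vale.Agent.P100.Souplet

variable {F : Type*} [NormedAddCommGroup F] [NormedSpace ℝ F] [FiniteDimensional ℝ F]
  [MeasurableSpace F] [BorelSpace F] [Nontrivial F] (μ : Measure F) [μ.IsAddHaarMeasure]

/-- `|x-y|^(-a)` is integrable on balls, uniformly in `x`, for `a` below the dimension. -/
theorem exists_pot_bound {a : ℝ} (ha : a < Module.finrank ℝ F) (R : ℝ) :
    ∃ C : ℝ≥0, ∀ x : F, ∫⁻ y in ball x R, ENNReal.ofReal (‖x - y‖ ^ (-a)) ∂μ ≤ C := by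
  have hfin : ∫⁻ y in ball (0 : F) R, ENNReal.ofReal (‖y‖ ^ (-a)) ∂μ < ⊤ := by
    rcases le_or_gt R 0 with hR | hR
    · simp [ball_eq_empty.2 hR]
    refine IntegrableOn.setLIntegral_lt_top ?_
    rw [integrableOn_fun_norm_addHaar μ (f := fun r : ℝ => r ^ (-a))]
    have hd : 0 < Module.finrank ℝ F := Module.finrank_pos
    have h1 := (intervalIntegral.intervalIntegrable_rpow' (a := 0) (b := R)
      (r := ((Module.finrank ℝ F - 1 : ℕ) : ℝ) + -a) (by
        rw [Nat.cast_pred hd]; linarith)).1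
    refine (h1.mono_set Ioo_subset_Ioc_self).congr_fun (fun r hr => ?_) measurableSet_Ioo
    change r ^ (((Module.finrank ℝ F - 1 : ℕ) : ℝ) + -a) = r ^ (Module.finrank ℝ F - 1) * r ^ (-a)
    rw [Real.rpow_add hr.1, Real.rpow_natCast]
  refine ⟨(∫⁻ y in ball (0 : F) R, ENNReal.ofReal (‖y‖ ^ (-a)) ∂μ).toNNReal, fun x => ?_⟩
  rw [ENNReal.coe_toNNReal hfin.ne, ← lintegral_indicator measurableSet_ball,
    ← lintegral_indicator measurableSet_ball]
  refine le_of_eq (Eq.trans ?_ (lintegral_sub_left_eq_self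
    ((ball (0 : F) R).indicator fun y => ENNReal.ofReal (‖y‖ ^ (-a))) x))
  refine lintegral_congr fun y => ?_
  simp only [indicator, mem_ball, dist_eq_norm, sub_zero, norm_sub_rev y x]

theorem rpow_le_self' {x : ℝ≥0∞} {z : ℝ} (hx : 1 ≤ x) (hz : z ≤ 1) : x ^ z ≤ x := by
  simpa using ENNReal.rpow_le_rpow_of_exponent_le hx hz

section Euclid

variable {n : ℕ}

local instance [NeZero n] : Nontrivial (EuclideanSpace ℝ (Fin n)) :=
  Module.nontrivial_of_finrank_pos (R := ℝ) (by simp [NeZero.pos])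

/-- A point has measure zero on the sphere. -/
theorem toSphere_singleton (hn : 2 ≤ n) (ω : sphere (0 : EuclideanSpace ℝ (Fin n)) 1) :
    (volume : Measure (EuclideanSpace ℝ (Fin n))).toSphere {ω} = 0 := by
  have : NeZero n := ⟨by omega⟩
  rw [Measure.toSphere_apply' _ (measurableSet_singleton ω)]
  refine mul_eq_zero.2 (Or.inr (measure_mono_null (t := (Submodule.span ℝ
    {(ω : EuclideanSpace ℝ (Fin n))} : Set (EuclideanSpace ℝ (Fin n)))) ?_ ?_))
  · rintro _ ⟨t, -, w, hw, rfl⟩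
    simp only [image_singleton, mem_singleton_iff] at hw
    subst hw
    exact Submodule.smul_mem _ _ (Submodule.mem_span_singleton_self _)
  · refine Measure.addHaar_submodule _ _ fun h => ?_
    have h1 := congrArg (fun S : Submodule ℝ (EuclideanSpace ℝ (Fin n)) => Module.finrank ℝ S) h
    have h2 := finrank_span_singleton (K := ℝ)
      (show (ω : EuclideanSpace ℝ (Fin n)) ≠ 0 from ne_zero_of_mem_unit_sphere ω)
    simp only [h2, finrank_top, finrank_euclideanSpace_fin] at h1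
    omega

/-- Negative powers above `-(n-1)` of the distance to a point are integrable on the sphere. -/
theorem exists_sphere_bound (hn : 2 ≤ n) {κ : ℝ} (hκ0 : 0 ≤ κ) (hκ : κ < (n : ℝ) - 1) :
    ∃ C : ℝ≥0, ∀ ω : sphere (0 : EuclideanSpace ℝ (Fin n)) 1,
      ∫⁻ θ : sphere (0 : EuclideanSpace ℝ (Fin n)) 1,
        ENNReal.ofReal (‖(θ : EuclideanSpace ℝ (Fin n)) - (ω : EuclideanSpace ℝ (Fin n))‖ ^ (-κ))
          ∂(volume : Measure (EuclideanSpace ℝ (Fin n))).toSphere ≤ C := by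
  have : NeZero n := ⟨by omega⟩
  set μ : Measure (EuclideanSpace ℝ (Fin n)) := volume with hμ
  obtain ⟨C, hC⟩ := exists_pot_bound μ (a := κ + 1) (by
    rw [finrank_euclideanSpace_fin]; linarith) 5
  refine ⟨(2 : ℝ).toNNReal ^ (κ + 1) * C, fun ω => ?_⟩
  set w : EuclideanSpace ℝ (Fin n) := (ω : EuclideanSpace ℝ (Fin n))
  have hw : ‖w‖ = 1 := by simp [w]
  set g : EuclideanSpace ℝ (Fin n) → ℝ≥0∞ :=
    (ball w 5).indicator fun x => ENNReal.ofReal (‖w - x‖ ^ (-(κ + 1))) with hg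
  have hgm : Measurable g := by
    refine Measurable.indicator ?_ measurableSet_ball
    fun_prop
  set c : ℝ≥0∞ := (((2 : ℝ).toNNReal ^ (κ + 1) : ℝ≥0) : ℝ≥0∞) with hc
  have hc' : c = ENNReal.ofReal (2 ^ (κ + 1)) := by
    rw [hc, ← Real.toNNReal_rpow_of_nonneg (by norm_num : (0 : ℝ) ≤ 2)]; rfl
  have hae : ∀ᵐ θ ∂μ.toSphere, θ ≠ ω := by
    rw [ae_iff]; simpa [hμ] using toSphere_singleton hn ω
  calc _ ≤ ∫⁻ θ, c * (∫⁻ r in Ioi (0 : ℝ), ENNReal.ofReal (r ^ (n - 1)) *
          g (r • (θ : EuclideanSpace ℝ (Fin n)))) ∂μ.toSphere := by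
        refine lintegral_mono_ae (hae.mono fun θ hθ => ?_)
        set v : EuclideanSpace ℝ (Fin n) := (θ : EuclideanSpace ℝ (Fin n))
        have hv : ‖v‖ = 1 := by simp [v]
        set d := ‖v - w‖
        have hd : 0 < d := norm_pos_iff.2 (sub_ne_zero.2 fun h => hθ (Subtype.ext h))
        have hd2 : d ≤ 2 := (norm_sub_le _ _).trans (by rw [hv, hw]; norm_num)
        calc ENNReal.ofReal (d ^ (-κ)) =
            c * (ENNReal.ofReal ((2 * d) ^ (-(κ + 1))) * volume (Ioo 1 (1 + d))) := by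
              rw [Real.volume_Ioo, hc', ← ENNReal.ofReal_mul (by positivity),
                ← ENNReal.ofReal_mul (by positivity), add_sub_cancel_left]
              congr 1
              have e : d ^ (-(κ + 1)) * d = d ^ (-κ) := by
                rw [← Real.rpow_add_one hd.ne']; ring_nf
              rw [Real.mul_rpow (by norm_num) hd.le, Real.rpow_neg (by norm_num : (0 : ℝ) ≤ 2),
                mul_assoc, e, ← mul_assoc, mul_inv_cancel₀ (by positivity), one_mul]
          _ = c * ∫⁻ _r in Ioo 1 (1 + d), ENNReal.ofReal ((2 * d) ^ (-(κ + 1))) := by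
              rw [setLIntegral_const]
          _ ≤ c * ∫⁻ r in Ioo 1 (1 + d), ENNReal.ofReal (r ^ (n - 1)) * g (r • v) := by
              refine mul_le_mul' le_rfl (setLIntegral_mono' measurableSet_Ioo fun r hr => ?_)
              obtain ⟨hr1, hr2⟩ := hr
              have h1 : ‖w - r • v‖ ≤ 2 * d := by
                have := norm_sub_le (w - v) ((r - 1) • v)
                rw [norm_smul, hv, Real.norm_eq_abs, abs_of_pos (by linarith),
                  show w - v - (r - 1) • v = w - r • v by rw [sub_smul, one_smul]; abel,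
                  show ‖w - v‖ = d from norm_sub_rev _ _] at this
                linarith
              have h2 : r - 1 ≤ ‖w - r • v‖ := by
                have := norm_sub_norm_le (r • v) w
                rw [norm_smul, hv, hw, Real.norm_eq_abs, abs_of_pos (by linarith),
                  norm_sub_rev] at this
                linarith
              have hmem : r • v ∈ ball w 5 := by
                rw [mem_ball, dist_eq_norm, norm_sub_rev]; linarith
              refine le_mul_of_one_le_of_le ?_ ?_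
              · exact ENNReal.one_le_ofReal.2 (one_le_pow₀ hr1.le)
              · rw [hg, indicator_of_mem hmem]
                exact ENNReal.ofReal_le_ofReal
                  (Real.rpow_le_rpow_of_nonpos (by linarith) h1 (by linarith))
          _ ≤ _ := mul_le_mul' le_rfl (lintegral_mono_set fun r hr =>
              mem_Ioi.2 (lt_trans one_pos hr.1))
    _ = c * ∫⁻ r in Ioi (0 : ℝ), ENNReal.ofReal (r ^ (n - 1)) * slice μ g r := by
        have hm : Measurable (Function.uncurry fun (θ : sphere (0 : EuclideanSpace ℝ (Fin n)) 1)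
            (r : ℝ) => ENNReal.ofReal (r ^ (n - 1)) * g (r • (θ : EuclideanSpace ℝ (Fin n)))) := by
          simp only [Function.uncurry_def]
          exact (by fun_prop : Measurable fun z : sphere (0 : EuclideanSpace ℝ (Fin n)) 1 × ℝ =>
            ENNReal.ofReal (z.2 ^ (n - 1))).mul
            (hgm.comp (measurable_snd.smul (measurable_subtype_coe.comp measurable_fst)))
        rw [lintegral_const_mul' _ _ ENNReal.coe_ne_top, lintegral_lintegral_swap hm.aemeasurable]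
        refine congrArg _ (lintegral_congr fun r => ?_)
        exact lintegral_const_mul' _ _ ENNReal.ofReal_ne_top
    _ = c * ∫⁻ x, g x ∂μ := by rw [lintegral_polar μ hgm, finrank_euclideanSpace_fin]
    _ ≤ c * C := by
        rw [hg, lintegral_indicator measurableSet_ball]
        exact mul_le_mul' le_rfl (hC w)
    _ = _ := (ENNReal.coe_mul _ _).symm

/-- The kernel on two spheres. -/
theorem exists_kernel_bound (hn : 2 ≤ n) {κ β : ℝ} (hκ0 : 0 ≤ κ) (hκ : κ < (n : ℝ) - 1)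
    (hβ : 0 ≤ β) :
    ∃ C : ℝ≥0, ∀ ρ r : ℝ, 1 / 2 ≤ ρ → 0 ≤ r → r ≠ ρ →
      ∀ ω : sphere (0 : EuclideanSpace ℝ (Fin n)) 1,
      ∫⁻ θ : sphere (0 : EuclideanSpace ℝ (Fin n)) 1, ENNReal.ofReal
        (‖ρ • (θ : EuclideanSpace ℝ (Fin n)) - r • (ω : EuclideanSpace ℝ (Fin n))‖ ^ (-(κ + β)))
          ∂(volume : Measure (EuclideanSpace ℝ (Fin n))).toSphere ≤
        C * ENNReal.ofReal (|ρ - r| ^ (-β)) := by
  obtain ⟨C, hC⟩ := exists_sphere_bound hn hκ0 hκ
  refine ⟨(4 : ℝ).toNNReal ^ κ * C, fun ρ r hρ hr hne ω => ?_⟩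
  set μ : Measure (EuclideanSpace ℝ (Fin n)) := volume with hμ
  have hae : ∀ᵐ θ ∂μ.toSphere, θ ≠ ω := by
    rw [ae_iff]; simpa [hμ] using toSphere_singleton hn ω
  have hc : (((4 : ℝ).toNNReal ^ κ : ℝ≥0) : ℝ≥0∞) = ENNReal.ofReal (4 ^ κ) := by
    rw [← Real.toNNReal_rpow_of_nonneg (by norm_num : (0 : ℝ) ≤ 4)]; rfl
  calc _ ≤ ∫⁻ θ, ENNReal.ofReal (4 ^ κ) * ENNReal.ofReal (|ρ - r| ^ (-β)) * ENNReal.ofReal
        (‖(θ : EuclideanSpace ℝ (Fin n)) - (ω : EuclideanSpace ℝ (Fin n))‖ ^ (-κ))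
          ∂μ.toSphere := by
        refine lintegral_mono_ae (hae.mono fun θ hθ => ?_)
        set v : EuclideanSpace ℝ (Fin n) := (θ : EuclideanSpace ℝ (Fin n))
        set w : EuclideanSpace ℝ (Fin n) := (ω : EuclideanSpace ℝ (Fin n))
        have hv : ‖v‖ = 1 := by simp [v]
        have hw : ‖w‖ = 1 := by simp [w]
        have hδ : 0 < |ρ - r| := abs_pos.2 (sub_ne_zero.2 hne.symm)
        have he : 0 < ‖v - w‖ := norm_pos_iff.2 (sub_ne_zero.2 fun h => hθ (Subtype.ext h))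
        set d := ‖ρ • v - r • w‖
        have hd1 : |ρ - r| ≤ d := by
          have := abs_norm_sub_norm_le (ρ • v) (r • w)
          rwa [norm_smul, norm_smul, hv, hw, Real.norm_eq_abs, Real.norm_eq_abs, mul_one, mul_one,
            abs_of_pos (by linarith : (0 : ℝ) < ρ), abs_of_nonneg hr] at this
        have hd2 : ‖v - w‖ / 4 ≤ d := by
          have h1 : ‖ρ • v - ρ • w‖ ≤ d + |ρ - r| := by
            calc ‖ρ • v - ρ • w‖ = ‖(ρ • v - r • w) - (ρ - r) • w‖ := by
                  rw [sub_smul]; congr 1; abel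
              _ ≤ d + ‖(ρ - r) • w‖ := norm_sub_le _ _
              _ = _ := by rw [norm_smul, hw, Real.norm_eq_abs, mul_one]
          rw [← smul_sub, norm_smul, Real.norm_eq_abs, abs_of_pos (by linarith : (0 : ℝ) < ρ)] at h1
          have := mul_le_mul_of_nonneg_right hρ he.le
          linarith
        have hd : 0 < d := hδ.trans_le hd1
        rw [← ENNReal.ofReal_mul (by positivity), ← ENNReal.ofReal_mul (by positivity)]
        refine ENNReal.ofReal_le_ofReal ?_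
        rw [show -(κ + β) = -β + -κ by ring, Real.rpow_add hd]
        calc d ^ (-β) * d ^ (-κ) ≤ |ρ - r| ^ (-β) * (‖v - w‖ / 4) ^ (-κ) := by
              gcongr ?_ * ?_
              · exact Real.rpow_le_rpow_of_nonpos hδ hd1 (by linarith)
              · exact Real.rpow_le_rpow_of_nonpos (by positivity) hd2 (by linarith)
          _ = _ := by
              rw [Real.div_rpow he.le (by norm_num), Real.rpow_neg (by norm_num : (0 : ℝ) ≤ 4)]
              field_simp
    _ ≤ ENNReal.ofReal (4 ^ κ) * ENNReal.ofReal (|ρ - r| ^ (-β)) * C := by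
        rw [lintegral_const_mul' _ _ (ENNReal.mul_ne_top ENNReal.ofReal_ne_top
          ENNReal.ofReal_ne_top)]
        exact mul_le_mul' le_rfl (hC ω)
    _ = _ := by rw [ENNReal.coe_mul, hc]; ring

/-- The kernel at the point `ρ θ`. -/
def pker (m ρ : ℝ) (θ : sphere (0 : EuclideanSpace ℝ (Fin n)) 1) (y : EuclideanSpace ℝ (Fin n)) :
    ℝ≥0∞ :=
  ENNReal.ofReal (‖ρ • (θ : EuclideanSpace ℝ (Fin n)) - y‖ ^ (-m))

/-- The weight. -/
def wgt (β ρ r : ℝ) : ℝ≥0∞ := ENNReal.ofReal (1 + |ρ - r| ^ (-β))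

theorem wgt_ne_zero (β ρ r : ℝ) : wgt β ρ r ≠ 0 := by
  simp only [wgt, ne_eq, ENNReal.ofReal_eq_zero, not_le]; positivity

theorem wgt_ne_top (β ρ r : ℝ) : wgt β ρ r ≠ ⊤ := ENNReal.ofReal_ne_top

theorem measurable_wgt (β : ℝ) : Measurable (Function.uncurry (wgt β)) := by
  simp only [Function.uncurry_def]; unfold wgt; fun_prop

theorem measurable_pker (m : ℝ) : Measurable fun z :
    (ℝ × sphere (0 : EuclideanSpace ℝ (Fin n)) 1) × EuclideanSpace ℝ (Fin n) =>
      pker m z.1.1 z.1.2 z.2 := by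
  unfold pker; fun_prop

theorem measurable_pker₁ (m ρ : ℝ) (θ : sphere (0 : EuclideanSpace ℝ (Fin n)) 1) :
    Measurable fun y => pker m ρ θ y := by
  unfold pker; fun_prop

theorem measurable_pker₂ (m ρ : ℝ) :
    Measurable fun z : sphere (0 : EuclideanSpace ℝ (Fin n)) 1 × EuclideanSpace ℝ (Fin n) =>
      pker m ρ z.1 z.2 := by
  unfold pker; fun_prop

theorem pker_swap (m ρ r : ℝ) (θ ω : sphere (0 : EuclideanSpace ℝ (Fin n)) 1) :
    pker m ρ θ (r • (ω : EuclideanSpace ℝ (Fin n))) =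
      pker m ρ ω (r • (θ : EuclideanSpace ℝ (Fin n))) := by
  simp only [pker]
  congr 2
  refine (sq_eq_sq₀ (norm_nonneg _) (norm_nonneg _)).1 ?_
  rw [norm_sub_sq_real, norm_sub_sq_real]
  simp [norm_smul, real_inner_smul_left, real_inner_smul_right,
    real_inner_comm (θ : EuclideanSpace ℝ (Fin n)) (ω : EuclideanSpace ℝ (Fin n))]

/-- Hypothesis shared by the next lemmas: the weight dominates the kernel on spheres. -/
def Dominates (n : ℕ) (C₀ : ℝ≥0) (m s β : ℝ) : Prop :=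
  ∀ ρ r : ℝ, 1 / 2 ≤ ρ → 0 ≤ r → r ≠ ρ → ∀ ω : sphere (0 : EuclideanSpace ℝ (Fin n)) 1,
    (∫⁻ θ, pker m ρ θ (r • (ω : EuclideanSpace ℝ (Fin n))) ^ s
      ∂(volume : Measure (EuclideanSpace ℝ (Fin n))).toSphere) * wgt β ρ r ^ (1 - s) ≤
      C₀ * wgt β ρ r

theorem second_factor [NeZero n] {C₀ L : ℝ≥0} {m s β : ℝ} (hKA : Dominates n C₀ m s β)
    (hAint : ∀ (c : ℝ) (U : Set ℝ), U ⊆ ball c 5 → ∫⁻ r in U, wgt β c r ≤ L) :
    ∀ ρ ∈ Icc (1 / 2 : ℝ) 4, ∀ θ, ∫⁻ y,
      (closedBall (0 : EuclideanSpace ℝ (Fin n)) 4).indicator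
        (fun y => pker m ρ θ y ^ s * wgt β ρ ‖y‖ ^ (1 - s)) y ≤
      (((4 : ℝ≥0) ^ (n - 1) * C₀ * L : ℝ≥0) : ℝ≥0∞) := by
  intro ρ hρ θ
  have hm1 : Measurable ((closedBall (0 : EuclideanSpace ℝ (Fin n)) 4).indicator
      fun y => pker m ρ θ y ^ s * wgt β ρ ‖y‖ ^ (1 - s)) :=
    (((measurable_pker₁ m ρ θ).pow_const s).mul
      (((measurable_wgt β).comp (measurable_const.prodMk measurable_norm :
        Measurable fun y : EuclideanSpace ℝ (Fin n) => (ρ, ‖y‖))).pow_const _)).indicator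
      measurableSet_closedBall
  rw [lintegral_polar volume hm1, finrank_euclideanSpace_fin]
  calc _ ≤ ∫⁻ r in Ioi (0 : ℝ),
        (Ioc (0 : ℝ) 4).indicator (fun r => (4 : ℝ≥0∞) ^ (n - 1) * (C₀ * wgt β ρ r)) r := by
        refine setLIntegral_mono_ae' measurableSet_Ioi ?_
        filter_upwards [Measure.ae_ne volume ρ] with r hne hr
        have hr0 : (0 : ℝ) < r := hr
        by_cases h4 : r ≤ 4
        · rw [indicator_of_mem (show r ∈ Ioc (0 : ℝ) 4 from ⟨hr0, h4⟩)]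
          refine mul_le_mul' ?_ ?_
          · rw [show (4 : ℝ≥0∞) = ENNReal.ofReal 4 by norm_num,
              ← ENNReal.ofReal_pow (by norm_num)]
            exact ENNReal.ofReal_le_ofReal (pow_le_pow_left₀ hr0.le h4 _)
          · refine le_trans (le_of_eq ?_) (hKA ρ r hρ.1 hr0.le hne θ)
            rw [← lintegral_mul_const' _ _ (ENNReal.rpow_ne_top_of_ne_zero (wgt_ne_zero β ρ r) (wgt_ne_top β ρ r))]
            refine lintegral_congr fun ω => ?_
            have hn1 : ‖r • (ω : EuclideanSpace ℝ (Fin n))‖ = r := by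
              simp [norm_smul, abs_of_pos hr0]
            rw [indicator_of_mem (by rw [mem_closedBall_zero_iff, hn1]; exact h4), hn1,
              pker_swap]
        · rw [indicator_of_notMem (show r ∉ Ioc (0 : ℝ) 4 from fun h => h4 h.2)]
          refine le_of_eq (mul_eq_zero.2 (Or.inr ?_))
          refine (lintegral_congr fun ω => ?_).trans lintegral_zero
          refine indicator_of_notMem ?_ _
          simp [norm_smul, abs_of_pos hr0, not_le.1 h4]
    _ ≤ ∫⁻ r, (Ioc (0 : ℝ) 4).indicator (fun r => (4 : ℝ≥0∞) ^ (n - 1) * (C₀ * wgt β ρ r)) r :=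
        setLIntegral_le_lintegral _ _
    _ = (4 : ℝ≥0∞) ^ (n - 1) * (C₀ * ∫⁻ r in Ioc (0 : ℝ) 4, wgt β ρ r) := by
        rw [lintegral_indicator measurableSet_Ioc,
          lintegral_const_mul' _ _ (by simp), lintegral_const_mul' _ _ ENNReal.coe_ne_top]
    _ ≤ _ := by
        rw [ENNReal.coe_mul, ENNReal.coe_mul, ENNReal.coe_pow, mul_assoc]
        refine mul_le_mul' le_rfl (mul_le_mul' le_rfl (hAint ρ _ fun r hr => ?_))
        rw [mem_ball, Real.dist_eq, abs_lt]
        exact ⟨by linarith [hr.1, hρ.2], by linarith [hr.2, hρ.1]⟩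

theorem one_sphere [NeZero n] {C₀ Cy : ℝ≥0} {m t s σ β : ℝ} (hKA : Dominates n C₀ m s β)
    (ht0 : 0 < t) (hs0 : 0 < s) (hσ0 : 0 < σ) (he₁0 : 0 ≤ 1 - 1 / t) (he₂0 : 0 ≤ 1 - 1 / s)
    (hσ : 1 / σ = 1 / t + 1 / s - 1)
    (hY : ∀ ρ ∈ Icc (1 / 2 : ℝ) 4, ∀ θ, ∫⁻ y,
      (closedBall (0 : EuclideanSpace ℝ (Fin n)) 4).indicator
        (fun y => pker m ρ θ y ^ s * wgt β ρ ‖y‖ ^ (1 - s)) y ≤ Cy)
    {f : EuclideanSpace ℝ (Fin n) → ℝ≥0∞} (hf : Measurable f)
    (hf0 : ∀ y, y ∉ closedBall (0 : EuclideanSpace ℝ (Fin n)) 4 → f y = 0) :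
    ∀ ρ ∈ Icc (1 / 2 : ℝ) 4, (∫⁻ θ, (∫⁻ y, pker m ρ θ y * f y) ^ σ
        ∂(volume : Measure (EuclideanSpace ℝ (Fin n))).toSphere) ^ (1 / σ) ≤
      (Cy : ℝ≥0∞) ^ (1 - 1 / t) * (C₀ : ℝ≥0∞) ^ (1 / σ) *
        (∫⁻ y, wgt β ρ ‖y‖ * f y ^ t) ^ (1 / t) := by
  set e₁ := 1 - 1 / t with he₁
  set e₂ := 1 - 1 / s with he₂
  have hσi : 0 ≤ 1 / σ := by positivity
  intro ρ hρ
  set X : sphere (0 : EuclideanSpace ℝ (Fin n)) 1 → ℝ≥0∞ :=
    fun θ => ∫⁻ y, pker m ρ θ y ^ s * wgt β ρ ‖y‖ ^ (1 - s) * f y ^ t with hX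
  have hpt : ∀ θ, ∫⁻ y, pker m ρ θ y * f y ≤ X θ ^ (1 / σ) * (Cy : ℝ≥0∞) ^ e₁ * (∫⁻ y, wgt β ρ ‖y‖ * f y ^ t) ^ e₂ := by
    intro θ
    set g : Fin 3 → EuclideanSpace ℝ (Fin n) → ℝ≥0∞ :=
      ![fun y => pker m ρ θ y ^ s * wgt β ρ ‖y‖ ^ (1 - s) * f y ^ t,
        (closedBall (0 : EuclideanSpace ℝ (Fin n)) 4).indicator
          (fun y => pker m ρ θ y ^ s * wgt β ρ ‖y‖ ^ (1 - s)),
        fun y => wgt β ρ ‖y‖ * f y ^ t] with hg
    have hK1 := measurable_pker₁ m ρ θ
    have hA1 : Measurable fun y : EuclideanSpace ℝ (Fin n) => wgt β ρ ‖y‖ :=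
      (measurable_wgt β).comp (measurable_const.prodMk measurable_norm :
        Measurable fun y : EuclideanSpace ℝ (Fin n) => (ρ, ‖y‖))
    have hgm : ∀ i ∈ (Finset.univ : Finset (Fin 3)), AEMeasurable (g i) volume := by
      intro i _
      fin_cases i
      · exact (((hK1.pow_const _).mul (hA1.pow_const _)).mul (hf.pow_const _)).aemeasurable
      · exact (((hK1.pow_const _).mul (hA1.pow_const _)).indicator
          measurableSet_closedBall).aemeasurable
      · exact (hA1.mul (hf.pow_const _)).aemeasurable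
    have hH := ENNReal.lintegral_prod_norm_pow_le (μ := (volume : Measure
      (EuclideanSpace ℝ (Fin n)))) Finset.univ hgm (p := ![1 / σ, e₁, e₂])
      (by simp [Fin.sum_univ_three, he₁, he₂, one_div] at hσ ⊢; linarith)
      (by intro i _; fin_cases i <;> simp <;> positivity)
    simp only [Fin.prod_univ_three, hg, Matrix.cons_val_zero, Matrix.cons_val_one,
      Matrix.cons_val_two, Matrix.tail_cons, Matrix.head_cons] at hH
    refine le_trans ?_ (hH.trans (mul_le_mul' (mul_le_mul' le_rfl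
      (ENNReal.rpow_le_rpow (hY ρ hρ θ) he₁0)) le_rfl))
    refine lintegral_mono fun y => ?_
    by_cases hy : y ∈ closedBall (0 : EuclideanSpace ℝ (Fin n)) 4
    · rw [indicator_of_mem hy]
      refine le_of_eq ?_
      have a1 : 1 / σ + e₁ = 1 / s := by rw [he₁]; linarith
      have a2 : 1 / σ + e₂ = 1 / t := by rw [he₂]; linarith
      set k := pker m ρ θ y
      set a := wgt β ρ ‖y‖
      set φ := f y
      have ha0 : a ≠ 0 := wgt_ne_zero β _ _
      have hat : a ≠ ⊤ := wgt_ne_top β _ _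
      simp only [ENNReal.mul_rpow_of_nonneg _ _ hσi, ENNReal.mul_rpow_of_nonneg _ _ he₁0,
        ENNReal.mul_rpow_of_nonneg _ _ he₂0, ← ENNReal.rpow_mul]
      calc k * φ = k ^ (s * (1 / σ) + s * e₁) *
            a ^ ((1 - s) * (1 / σ) + (1 - s) * e₁ + e₂) * φ ^ (t * (1 / σ) + t * e₂) := by
            rw [← mul_add, ← mul_add, ← mul_add, a1, a2, mul_one_div, mul_one_div, mul_one_div,
              div_self hs0.ne', div_self ht0.ne', ENNReal.rpow_one, ENNReal.rpow_one,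
              show (1 - s) / s + e₂ = 0 by rw [he₂]; field_simp; ring, ENNReal.rpow_zero,
              mul_one]
        _ = _ := by
            rw [ENNReal.rpow_add_of_nonneg _ _ (by positivity) (mul_nonneg hs0.le he₁0),
              ENNReal.rpow_add_of_nonneg _ _ (by positivity) (mul_nonneg ht0.le he₂0),
              ENNReal.rpow_add _ _ ha0 hat, ENNReal.rpow_add _ _ ha0 hat]
            ring
    · simp [hf0 y hy]
  have hXi : ∫⁻ θ, X θ ∂(volume : Measure (EuclideanSpace ℝ (Fin n))).toSphere ≤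
      C₀ * (∫⁻ y, wgt β ρ ‖y‖ * f y ^ t) := by
    have hm2 : Measurable (Function.uncurry fun θ y =>
        pker m ρ θ y ^ s * wgt β ρ ‖y‖ ^ (1 - s) * f y ^ t) := by
      simp only [Function.uncurry_def]
      exact (((measurable_pker₂ m ρ).pow_const _).mul
        (((measurable_wgt β).comp (measurable_const.prodMk measurable_snd.norm :
          Measurable fun z : sphere (0 : EuclideanSpace ℝ (Fin n)) 1 ×
            EuclideanSpace ℝ (Fin n) => (ρ, ‖z.2‖))).pow_const _)).mul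
        ((hf.comp measurable_snd).pow_const _)
    simp only [hX]
    rw [lintegral_lintegral_swap hm2.aemeasurable, ← lintegral_const_mul' _ _
      ENNReal.coe_ne_top]
    have hnull : ∀ᵐ y : EuclideanSpace ℝ (Fin n), y ≠ 0 ∧ ‖y‖ ≠ ρ := by
      have h1 : ∀ᵐ y : EuclideanSpace ℝ (Fin n), y ≠ 0 := Measure.ae_ne volume 0
      have h2 : ∀ᵐ y : EuclideanSpace ℝ (Fin n), y ∉ sphere (0 : EuclideanSpace ℝ (Fin n)) ρ :=
        measure_eq_zero_iff_ae_notMem.1 (Measure.addHaar_sphere volume 0 ρ)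
      filter_upwards [h1, h2] with y a b using ⟨a, by simpa using b⟩
    refine lintegral_mono_ae (hnull.mono fun y hy => ?_)
    obtain ⟨hy0, hyρ⟩ := hy
    set ω : sphere (0 : EuclideanSpace ℝ (Fin n)) 1 :=
      ⟨‖y‖⁻¹ • y, by simp [norm_smul, norm_ne_zero_iff.2 hy0]⟩
    have hyω : ‖y‖ • (ω : EuclideanSpace ℝ (Fin n)) = y := by
      simp [ω, smul_smul, norm_ne_zero_iff.2 hy0]
    have hmθ : Measurable fun θ : sphere (0 : EuclideanSpace ℝ (Fin n)) 1 =>
        pker m ρ θ y ^ s * wgt β ρ ‖y‖ ^ (1 - s) :=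
      (((measurable_pker₂ m ρ).comp (measurable_id.prodMk measurable_const :
        Measurable fun θ : sphere (0 : EuclideanSpace ℝ (Fin n)) 1 => (θ, y))).pow_const _).mul_const _
    rw [lintegral_mul_const _ hmθ,
      lintegral_mul_const' _ _ (ENNReal.rpow_ne_top_of_ne_zero (wgt_ne_zero β _ _) (wgt_ne_top β _ _)),
      ← mul_assoc]
    refine mul_le_mul' ?_ le_rfl
    have := hKA ρ ‖y‖ hρ.1 (norm_nonneg y) hyρ ω
    rwa [hyω] at this
  calc (∫⁻ θ, (∫⁻ y, pker m ρ θ y * f y) ^ σ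
        ∂(volume : Measure (EuclideanSpace ℝ (Fin n))).toSphere) ^ (1 / σ)
      ≤ (∫⁻ θ, X θ * ((Cy : ℝ≥0∞) ^ e₁ * (∫⁻ y, wgt β ρ ‖y‖ * f y ^ t) ^ e₂) ^ σ
        ∂(volume : Measure (EuclideanSpace ℝ (Fin n))).toSphere) ^ (1 / σ) := by
        refine ENNReal.rpow_le_rpow (lintegral_mono fun θ => ?_) hσi
        refine (ENNReal.rpow_le_rpow (hpt θ) hσ0.le).trans_eq ?_
        rw [mul_assoc, ENNReal.mul_rpow_of_nonneg _ _ hσ0.le, ← ENNReal.rpow_mul,
          one_div_mul_cancel hσ0.ne', ENNReal.rpow_one]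
    _ ≤ ((C₀ * (∫⁻ y, wgt β ρ ‖y‖ * f y ^ t)) * ((Cy : ℝ≥0∞) ^ e₁ * (∫⁻ y, wgt β ρ ‖y‖ * f y ^ t) ^ e₂) ^ σ) ^ (1 / σ) := by
        refine ENNReal.rpow_le_rpow ?_ hσi
        rw [lintegral_mul_const _ ?_]
        · exact mul_le_mul' hXi le_rfl
        · refine Measurable.lintegral_prod_right' (f := fun z :
            sphere (0 : EuclideanSpace ℝ (Fin n)) 1 × EuclideanSpace ℝ (Fin n) =>
              pker m ρ z.1 z.2 ^ s * wgt β ρ ‖z.2‖ ^ (1 - s) * f z.2 ^ t) ?_
          exact (((measurable_pker₂ m ρ).pow_const _).mul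
            (((measurable_wgt β).comp (measurable_const.prodMk measurable_snd.norm :
              Measurable fun z : sphere (0 : EuclideanSpace ℝ (Fin n)) 1 ×
                EuclideanSpace ℝ (Fin n) => (ρ, ‖z.2‖))).pow_const _)).mul
            ((hf.comp measurable_snd).pow_const _)
    _ = _ := by
        rw [ENNReal.mul_rpow_of_nonneg _ _ hσi, ENNReal.mul_rpow_of_nonneg _ _ hσi,
          ← ENNReal.rpow_mul, mul_one_div_cancel hσ0.ne', ENNReal.rpow_one]
        rw [show 1 / t = 1 / σ + e₂ by rw [he₂]; linarith,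
          ENNReal.rpow_add_of_nonneg _ _ hσi he₂0]
        ring

theorem radial_integral {L : ℝ≥0} {t β : ℝ} (ht0 : 0 < t)
    (hAint : ∀ (c : ℝ) (U : Set ℝ), U ⊆ ball c 5 → ∫⁻ r in U, wgt β c r ≤ L)
    {f : EuclideanSpace ℝ (Fin n) → ℝ≥0∞} (hf : Measurable f)
    (hf0 : ∀ y, y ∉ closedBall (0 : EuclideanSpace ℝ (Fin n)) 4 → f y = 0) :
    ∫⁻ ρ in Icc (1 / 2 : ℝ) 4, ∫⁻ y, wgt β ρ ‖y‖ * f y ^ t ≤ (L : ℝ≥0∞) * ∫⁻ y, f y ^ t := by
  rw [lintegral_lintegral_swap (by
    simp only [Function.uncurry_def]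
    exact (((measurable_wgt β).comp (measurable_fst.prodMk measurable_snd.norm)).mul
      ((hf.comp measurable_snd).pow_const t)).aemeasurable),
    ← lintegral_const_mul' _ _ ENNReal.coe_ne_top]
  refine lintegral_mono fun y => ?_
  by_cases hy : y ∈ closedBall (0 : EuclideanSpace ℝ (Fin n)) 4
  · rw [mem_closedBall_zero_iff] at hy
    have hmr : Measurable fun r : ℝ => wgt β r ‖y‖ :=
      (measurable_wgt β).comp (measurable_id.prodMk measurable_const)
    rw [lintegral_mul_const _ hmr]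
    refine mul_le_mul' ?_ le_rfl
    simp only [wgt, abs_sub_comm _ ‖y‖]
    change ∫⁻ r in Icc (1 / 2 : ℝ) 4, wgt β ‖y‖ r ≤ (L : ℝ≥0∞)
    refine hAint ‖y‖ _ fun r hr => ?_
    rw [mem_ball, Real.dist_eq, abs_lt]
    exact ⟨by linarith [hr.1, norm_nonneg y], by linarith [hr.2, norm_nonneg y]⟩
  · simp [hf0 y hy, ENNReal.zero_rpow_of_pos ht0]

/-- **Potential estimate on spheres.** -/
theorem sliced_potential (hn : 3 ≤ n) {m t s σ : ℝ} (hm : 0 ≤ m) (ht : 1 ≤ t) (hs : 1 ≤ s)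
    (htσ : t ≤ σ) (hσ : 1 / σ = 1 / t + 1 / s - 1) (hms : m * s < ((n : ℝ) - 1) + s) :
    ∃ C : ℝ≥0, ∀ f : EuclideanSpace ℝ (Fin n) → ℝ≥0∞, Measurable f →
      (∀ y, y ∉ closedBall (0 : EuclideanSpace ℝ (Fin n)) 4 → f y = 0) →
      ∫⁻ ρ in Icc (1 / 2 : ℝ) 4,
        (∫⁻ θ : sphere (0 : EuclideanSpace ℝ (Fin n)) 1,
          (∫⁻ y, ENNReal.ofReal (‖ρ • (θ : EuclideanSpace ℝ (Fin n)) - y‖ ^ (-m)) * f y) ^ σ
            ∂(volume : Measure (EuclideanSpace ℝ (Fin n))).toSphere) ^ (1 / σ) ≤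
        C * (∫⁻ y, f y ^ t) ^ (1 / t) := by
  have : NeZero n := ⟨by omega⟩
  have hn2 : (2 : ℝ) ≤ (n : ℝ) - 1 := by
    have : (3 : ℝ) ≤ n := by exact_mod_cast hn
    linarith
  have ht0 : 0 < t := by linarith
  have hs0 : 0 < s := by linarith
  have hσ0 : 0 < σ := by linarith
  -- the exponents of the kernel
  set κ := min (m * s) (max 0 ((m * s - s + ((n : ℝ) - 1)) / 2)) with hκd
  have hκ0 : 0 ≤ κ := le_min (by positivity) (le_max_left _ _)
  have hκ1 : κ < (n : ℝ) - 1 :=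
    (min_le_right _ _).trans_lt (max_lt (by linarith) (by linarith))
  have hκ2 : κ ≤ m * s := min_le_left _ _
  have hκ3 : m * s - κ < s := by
    rw [hκd]
    rcases min_choice (m * s) (max 0 ((m * s - s + ((n : ℝ) - 1)) / 2)) with h | h <;> rw [h]
    · linarith
    · linarith [le_max_right (0 : ℝ) ((m * s - s + ((n : ℝ) - 1)) / 2)]
  set β := (m * s - κ) / s with hβd
  have hβ0 : 0 ≤ β := div_nonneg (by linarith) hs0.le
  have hβ1 : β < 1 := by rw [hβd, div_lt_one hs0]; exact hκ3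
  have hβs : β * s = m * s - κ := div_mul_cancel₀ _ hs0.ne'
  obtain ⟨C₀, hC₀⟩ := exists_kernel_bound (n := n) (by omega) hκ0 hκ1 (β := β * s)
    (mul_nonneg hβ0 hs0.le)
  obtain ⟨P, hP⟩ := exists_pot_bound (volume : Measure ℝ) (a := β) (by simpa using hβ1) 5
  -- the weight
  set L : ℝ≥0 := 10 + P with hL
  have hAint : ∀ (c : ℝ) (U : Set ℝ), U ⊆ ball c 5 → ∫⁻ r in U, wgt β c r ≤ L := by
    intro c U hU
    refine (lintegral_mono_set hU).trans ?_
    have e : ∀ r, wgt β c r = 1 + ENNReal.ofReal (‖c - r‖ ^ (-β)) := fun r => by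
      simp only [wgt, Real.norm_eq_abs]
      rw [ENNReal.ofReal_add zero_le_one (by positivity), ENNReal.ofReal_one]
    simp only [e]
    rw [lintegral_add_left measurable_const, setLIntegral_const, one_mul, Real.volume_ball, hL,
      ENNReal.coe_add]
    exact add_le_add (by norm_num) (hP c)
  have hKA : Dominates n C₀ m s β := by
    intro ρ r hρ hr hne ω
    have hle : ENNReal.ofReal (|ρ - r| ^ (-(β * s))) ≤ wgt β ρ r ^ s := by
      simp only [wgt]
      rw [ENNReal.ofReal_rpow_of_nonneg (by positivity) hs0.le]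
      refine ENNReal.ofReal_le_ofReal ?_
      rw [← neg_mul, Real.rpow_mul (abs_nonneg _)]
      exact Real.rpow_le_rpow (by positivity) (le_add_of_nonneg_left zero_le_one) hs0.le
    calc _ ≤ C₀ * wgt β ρ r ^ s * wgt β ρ r ^ (1 - s) := by
          refine mul_le_mul' ?_ le_rfl
          refine le_trans (le_of_eq (lintegral_congr fun θ => ?_))
            ((hC₀ ρ r hρ hr hne ω).trans (mul_le_mul' le_rfl hle))
          simp only [pker]
          rw [ENNReal.ofReal_rpow_of_nonneg (by positivity) hs0.le,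
            ← Real.rpow_mul (norm_nonneg _)]
          congr 2
          rw [hβs]; ring
      _ = C₀ * wgt β ρ r := by
          rw [mul_assoc, ← ENNReal.rpow_add _ _ (wgt_ne_zero β ρ r) (wgt_ne_top β ρ r),
            add_sub_cancel, ENNReal.rpow_one]
  set Cy : ℝ≥0 := (4 : ℝ≥0) ^ (n - 1) * C₀ * L with hCy
  set e₁ := 1 - 1 / t with he₁
  have he₁0 : 0 ≤ e₁ := sub_nonneg.2 ((div_le_one ht0).2 ht)
  have he₂0 : 0 ≤ 1 - 1 / s := sub_nonneg.2 ((div_le_one hs0).2 hs)
  have hσi : 0 ≤ 1 / σ := by positivity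
  refine ⟨Cy ^ e₁ * (C₀ + 1) * (4 * (L + 1)), fun f hf hf0 => ?_⟩
  set Z : ℝ → ℝ≥0∞ := fun ρ => ∫⁻ y, wgt β ρ ‖y‖ * f y ^ t with hZ
  have hZm : Measurable Z := by
    refine Measurable.lintegral_prod_right' (f := fun z : ℝ × EuclideanSpace ℝ (Fin n) =>
      wgt β z.1 ‖z.2‖ * f z.2 ^ t) ?_
    exact ((measurable_wgt β).comp (measurable_fst.prodMk measurable_snd.norm)).mul
      ((hf.comp measurable_snd).pow_const t)
  have hG := one_sphere hKA ht0 hs0 hσ0 he₁0 he₂0 hσ (second_factor hKA hAint) hf hf0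
  have hZi := radial_integral ht0 hAint hf hf0
  have hJ : ∫⁻ ρ in Icc (1 / 2 : ℝ) 4, Z ρ ^ (1 / t) ≤
      ((4 * (L + 1) : ℝ≥0) : ℝ≥0∞) * (∫⁻ y, f y ^ t) ^ (1 / t) := by
    have h := ENNReal.lintegral_mul_norm_pow_le (μ := volume.restrict (Icc (1 / 2 : ℝ) 4))
      (f := Z) (g := fun _ => 1) hZm.aemeasurable aemeasurable_const (p := 1 / t) (q := e₁)
      (by positivity) he₁0 (by rw [he₁]; ring)
    simp only [ENNReal.one_rpow, mul_one, setLIntegral_const, one_mul, Real.volume_Icc] at h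
    refine h.trans (le_trans (mul_le_mul' (ENNReal.rpow_le_rpow hZi (by positivity)) le_rfl) ?_)
    rw [ENNReal.mul_rpow_of_nonneg _ _ (by positivity), mul_right_comm]
    refine mul_le_mul' ?_ le_rfl
    rw [ENNReal.coe_mul, mul_comm]
    refine mul_le_mul' ?_ ?_
    · refine (ENNReal.rpow_le_rpow (ENNReal.ofReal_le_ofReal (q := (4 : ℝ)) (by norm_num))
        he₁0).trans ?_
      norm_num
      exact rpow_le_self' (by norm_num)
        (by rw [he₁]; linarith [div_pos one_pos ht0])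
    · refine le_trans (ENNReal.rpow_le_rpow (le_self_add (a := (L : ℝ≥0∞)) (b := 1))
        (by positivity)) ?_
      rw [show ((L + 1 : ℝ≥0) : ℝ≥0∞) = (L : ℝ≥0∞) + 1 by simp [ENNReal.coe_add]]
      exact rpow_le_self' le_add_self ((div_le_one ht0).2 ht)
  calc _ ≤ ∫⁻ ρ in Icc (1 / 2 : ℝ) 4,
        (Cy : ℝ≥0∞) ^ e₁ * (C₀ : ℝ≥0∞) ^ (1 / σ) * Z ρ ^ (1 / t) :=
      setLIntegral_mono' measurableSet_Icc fun ρ hρ => hG ρ hρ
    _ = (Cy : ℝ≥0∞) ^ e₁ * (C₀ : ℝ≥0∞) ^ (1 / σ) *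
        ∫⁻ ρ in Icc (1 / 2 : ℝ) 4, Z ρ ^ (1 / t) :=
      lintegral_const_mul _ (hZm.pow_const _)
    _ ≤ _ := by
      rw [ENNReal.coe_mul (Cy ^ e₁ * (C₀ + 1)), ENNReal.coe_mul (Cy ^ e₁),
        ENNReal.coe_rpow_of_nonneg _ he₁0, ENNReal.coe_add C₀, ENNReal.coe_one,
        mul_assoc ((Cy : ℝ≥0∞) ^ e₁ * ((C₀ : ℝ≥0∞) + 1))]
      refine mul_le_mul' (mul_le_mul' le_rfl ?_) hJ
      refine le_trans (ENNReal.rpow_le_rpow (le_self_add (a := (C₀ : ℝ≥0∞)) (b := 1)) hσi) ?_
      exact rpow_le_self' le_add_self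
        ((div_le_one hσ0).2 (le_trans ht htσ))

end Euclid

end Vale.Agent.P100.Souplet
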