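import Mathlib
import Vale.Agent.P100.UnitBound
import Vale.Agent.P100.Compare
import Vale.Agent.P100.Puncture
import Vale.Agent.P100.Souplet.L1
import Vale.Agent.P100.Souplet.Radii
import Vale.Agent.P100.Souplet.Interp
import Vale.Agent.P100.Souplet.Sliced

/-!
# No solutions when `max (α, β) > n - 3`

Souplet's range, proved from uniform `L¹` bounds, local potential bounds, a sliced potential
estimate, interpolation and the Rellich-Pohozaev identity.
-/

open MeasureTheory Filter Set Metric Topology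
open scoped ENNReal NNReal

namespace Vale.Agent.P100.Souplet

variable {n : ℕ} {p q : ℝ}

/-- Potential bounds for a function and its differential from an annulus. -/
def LocalBounds (n : ℕ) : Prop :=
  ∃ C M : ℝ, 0 ≤ C ∧ 0 ≤ M ∧ ∀ u f : EuclideanSpace ℝ (Fin n) → ℝ, (∀ x, 0 ≤ u x) →
    (∀ x, 0 ≤ f x) → Continuous f → Continuous u → ContDiffOn ℝ 2 u {0}ᶜ →
    (∀ x, x ≠ 0 → Laplacian.laplacian u x = -(f x)) → ∀ r h : ℝ, 1 ≤ r → 0 < h → r + h ≤ 4 →
    ∀ x, 1 ≤ ‖x‖ → ‖x‖ ≤ r + h / 2 →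
      u x ≤ C * (∫ y in ann n (r + h), ‖x - y‖ ^ (2 - (n : ℝ)) * f y) +
          C * h ^ (-M) * (∫ y in ann n (r + h), u y) ∧
      ‖fderiv ℝ u x‖ ≤ C * (∫ y in ann n (r + h), ‖x - y‖ ^ (1 - (n : ℝ)) * f y) +
          C * h ^ (-M) * (∫ y in ann n (r + h), u y)

/-- `∫ ‖x - y‖ ^ (-m) f y` -/
noncomputable def pot (m : ℝ) (f : EuclideanSpace ℝ (Fin n) → ℝ≥0∞)
    (x : EuclideanSpace ℝ (Fin n)) : ℝ≥0∞ :=
  ∫⁻ y, ENNReal.ofReal (‖x - y‖ ^ (-m)) * f y

/-- The `L^σ` norm of the potential on the sphere of radius `ρ`. -/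
noncomputable def potNorm (m σ : ℝ) (f : EuclideanSpace ℝ (Fin n) → ℝ≥0∞) (ρ : ℝ) : ℝ≥0∞ :=
  slice volume (fun x => pot m f x ^ σ) ρ ^ (1 / σ)

/-- `g` on the annulus, as an extended nonnegative function. -/
noncomputable def annFun (g : EuclideanSpace ℝ (Fin n) → ℝ) (b : ℝ) :
    EuclideanSpace ℝ (Fin n) → ℝ≥0∞ :=
  (ann n b).indicator fun y => ENNReal.ofReal (g y)

theorem measurable_pot (m : ℝ) {f : EuclideanSpace ℝ (Fin n) → ℝ≥0∞} (hf : Measurable f) :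
    Measurable (pot m f) := by
  have h : Measurable fun z : EuclideanSpace ℝ (Fin n) × EuclideanSpace ℝ (Fin n) =>
      ENNReal.ofReal (‖z.1 - z.2‖ ^ (-m)) * f z.2 :=
    ((measurable_fst.sub measurable_snd).norm.pow_const (-m)).ennreal_ofReal.mul
      (hf.comp measurable_snd)
  exact h.lintegral_prod_right'

theorem measurable_potNorm (m σ : ℝ) {f : EuclideanSpace ℝ (Fin n) → ℝ≥0∞} (hf : Measurable f) :
    Measurable (potNorm m σ f) :=
  (measurable_slice volume ((measurable_pot m hf).pow_const σ)).pow_const _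

theorem measurable_annFun {g : EuclideanSpace ℝ (Fin n) → ℝ} (hg : Continuous g) (b : ℝ) :
    Measurable (annFun g b) :=
  hg.measurable.ennreal_ofReal.indicator (measurableSet_ann n b)

theorem annFun_eq_zero (g : EuclideanSpace ℝ (Fin n) → ℝ) {b : ℝ} (hb : b ≤ 4)
    {y : EuclideanSpace ℝ (Fin n)} (hy : y ∉ closedBall (0 : EuclideanSpace ℝ (Fin n)) 4) :
    annFun g b y = 0 := by
  refine indicator_of_notMem (fun h => hy ?_) _
  simpa using h.2.trans hb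

theorem lintegral_annFun {g : EuclideanSpace ℝ (Fin n) → ℝ} (hg : Continuous g)
    (hg0 : ∀ y, 0 ≤ g y) (b : ℝ) :
    ∫⁻ y, annFun g b y = ENNReal.ofReal (∫ y in ann n b, g y) := by
  rw [annFun, lintegral_indicator (measurableSet_ann n b),
    ofReal_integral_eq_lintegral_ofReal (hg.continuousOn.integrableOn_compact (isCompact_ann n b))
      (ae_of_all _ hg0)]

theorem lintegral_annFun_rpow {g : EuclideanSpace ℝ (Fin n) → ℝ} (hg : Continuous g)
    (hg0 : ∀ y, 0 ≤ g y) (b : ℝ) {t : ℝ} (ht : 0 < t) :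
    ∫⁻ y, annFun g b y ^ t = ENNReal.ofReal (∫ y in ann n b, g y ^ t) := by
  rw [← lintegral_annFun (hg.rpow_const fun y => Or.inr ht.le)
    (fun y => Real.rpow_nonneg (hg0 y) t) b]
  refine lintegral_congr fun y => ?_
  by_cases hy : y ∈ ann n b
  · simp only [annFun, indicator_of_mem hy]
    exact ENNReal.ofReal_rpow_of_nonneg (hg0 y) ht.le
  · simp only [annFun, indicator_of_notMem hy, ENNReal.zero_rpow_of_pos ht]

theorem ofReal_integral_le_pot (m b : ℝ) {g : EuclideanSpace ℝ (Fin n) → ℝ}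
    (hg0 : ∀ y, 0 ≤ g y) (x : EuclideanSpace ℝ (Fin n)) :
    ENNReal.ofReal (∫ y in ann n b, ‖x - y‖ ^ (-m) * g y) ≤ pot m (annFun g b) x := by
  rw [← Real.enorm_eq_ofReal (setIntegral_nonneg (measurableSet_ann n b) fun y _ =>
    mul_nonneg (Real.rpow_nonneg (norm_nonneg _) _) (hg0 y))]
  refine (enorm_integral_le_lintegral_enorm _).trans (le_of_eq ?_)
  rw [pot, ← lintegral_indicator (measurableSet_ann n b)]
  refine lintegral_congr fun y => ?_
  have h0 := Real.rpow_nonneg (norm_nonneg (x - y)) (-m)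
  by_cases hy : y ∈ ann n b
  · rw [indicator_of_mem hy, annFun, indicator_of_mem hy,
      Real.enorm_eq_ofReal (mul_nonneg h0 (hg0 y)), ENNReal.ofReal_mul h0]
  · rw [indicator_of_notMem hy, annFun, indicator_of_notMem hy, mul_zero]

theorem pot_le_succ {m : ℝ} (hm : 0 < m) {g : EuclideanSpace ℝ (Fin n) → ℝ} {b : ℝ} (hb : b ≤ 4)
    {x : EuclideanSpace ℝ (Fin n)} (hx : ‖x‖ ≤ 4) :
    pot m (annFun g b) x ≤ ENNReal.ofReal 8 * pot (m + 1) (annFun g b) x := by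
  rw [pot, pot, ← lintegral_const_mul' _ _ ENNReal.ofReal_ne_top]
  refine lintegral_mono fun y => ?_
  by_cases hy : y ∈ ann n b
  · rw [← mul_assoc, ← ENNReal.ofReal_mul (by norm_num)]
    refine mul_le_mul' (ENNReal.ofReal_le_ofReal ?_) le_rfl
    rcases eq_or_lt_of_le (norm_nonneg (x - y)) with h | h
    · rw [← h, Real.zero_rpow (by linarith)]
      positivity
    · rw [show -m = -(m + 1) + 1 by ring, Real.rpow_add_one h.ne', mul_comm (8 : ℝ)]
      refine mul_le_mul_of_nonneg_left ?_ (by positivity)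
      linarith [norm_sub_le x y, hy.2]
  · simp [annFun, indicator_of_notMem hy]

/-- The sliced potential estimate in the form used below. -/
theorem sliced_potNorm (hn : 3 ≤ n) {m A s₀ σ : ℝ} (hm : 0 ≤ m) (hA0 : 0 ≤ A) (hA : A < s₀)
    (hs : s₀ ≤ 1) (hσ : 1 / σ = s₀ - A) (hms : m - 1 < ((n : ℝ) - 1) * s₀) :
    ∃ C : ℝ≥0, ∀ f : EuclideanSpace ℝ (Fin n) → ℝ≥0∞, Measurable f →
      (∀ y, y ∉ closedBall (0 : EuclideanSpace ℝ (Fin n)) 4 → f y = 0) →
      ∫⁻ ρ in Icc (1 / 2 : ℝ) 4, potNorm m σ f ρ ≤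
        C * (∫⁻ y, f y ^ (1 / (1 - A))) ^ (1 - A) := by
  have hs0 : 0 < s₀ := by linarith
  have hA1 : 0 < 1 - A := by linarith
  obtain ⟨C, hC⟩ := sliced_potential hn (m := m) (t := 1 / (1 - A)) (s := 1 / s₀) (σ := σ) hm
    (by rw [one_le_div hA1]; linarith) (by rw [one_le_div hs0]; exact hs) (by
      have : σ = 1 / (s₀ - A) := by rw [← hσ, one_div_one_div]
      rw [this]
      exact one_div_le_one_div_of_le (by linarith) (by linarith))
    (by rw [hσ, one_div_one_div, one_div_one_div]; ring) (by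
      rw [mul_one_div, div_lt_iff₀ hs0, add_mul, one_div_mul_cancel hs0.ne']
      linarith)
  refine ⟨C, fun f hf hf0 => ?_⟩
  have := hC f hf hf0
  rwa [one_div_one_div] at this

/-- `∫ (c pot + e) ^ σ` on a sphere where the norm of the potential is small. -/
theorem slice_pot_le {m σ c e W : ℝ} (hσ : 1 ≤ σ) (hc : 0 ≤ c) (he0 : 0 ≤ e) (he : e ≤ W)
    {f : EuclideanSpace ℝ (Fin n) → ℝ≥0∞} {ρ : ℝ}
    (h : potNorm m σ f ρ ≤ ENNReal.ofReal W) :
    slice volume (fun x => (ENNReal.ofReal c * pot m f x + ENNReal.ofReal e) ^ σ) ρ ≤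
      ENNReal.ofReal (2 ^ σ * (c ^ σ +
        (volume : Measure (EuclideanSpace ℝ (Fin n))).toSphere.real univ) * W ^ σ) :=
  lintegral_add_const_le (g := fun θ : sphere (0 : EuclideanSpace ℝ (Fin n)) 1 =>
    pot m f (ρ • (θ : EuclideanSpace ℝ (Fin n)))) hσ hc he0 he h

/-- The integral of the top power on the annulus is at most the energy of the ball. -/
theorem lintegral_top_le {u v : EuclideanSpace ℝ (Fin n) → ℝ} (h : IsSol p q u v) {s b : ℝ}
    (hs : 0 < s) {w : EuclideanSpace ℝ (Fin n) → ℝ} (hw : Continuous w) (hw0 : ∀ y, 0 < w y)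
    (hle : ∀ y, w y ^ (s + 1) ≤ energy p q u v y) :
    ∫⁻ y, annFun (fun z => w z ^ s) b y ^ ((s + 1) / s) ≤
      ENNReal.ofReal (∫ y in closedBall (0 : EuclideanSpace ℝ (Fin n)) b, energy p q u v y) := by
  rw [lintegral_annFun_rpow (hw.rpow_const fun y => Or.inr hs.le)
    (fun y => Real.rpow_nonneg (hw0 y).le _) _ (by positivity)]
  refine ENNReal.ofReal_le_ofReal ?_
  have hint : IntegrableOn (energy p q u v) (closedBall 0 b) :=
    h.continuous_energy.continuousOn.integrableOn_compact (isCompact_closedBall _ _)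
  have hsub : ann n b ⊆ closedBall 0 b := fun y hy => by simpa using hy.2
  refine le_trans ?_ (setIntegral_mono_set hint (ae_of_all _ h.energy_nonneg)
    (LE.le.eventuallyLE hsub))
  refine setIntegral_mono_on ?_ (hint.mono_set hsub) (measurableSet_ann n _) fun y _ => ?_
  · exact ((hw.rpow_const fun y => Or.inr hs.le).rpow_const fun y => Or.inr
      (by positivity)).continuousOn.integrableOn_compact (isCompact_ann n _)
  · show (w y ^ s) ^ ((s + 1) / s) ≤ _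
    rw [← Real.rpow_mul (hw0 y).le, mul_div_cancel₀ _ hs.ne']
    exact hle y

theorem ann_mono_integral {g : EuclideanSpace ℝ (Fin n) → ℝ} (hg : Continuous g)
    (hg0 : ∀ y, 0 ≤ g y) {b : ℝ} (hb : b ≤ 4) :
    (∫ y in ann n b, g y) ≤ ∫ y in ann n 4, g y :=
  setIntegral_mono_set (hg.continuousOn.integrableOn_compact (isCompact_ann n 4))
    (ae_of_all _ hg0) (LE.le.eventuallyLE fun y hy => ⟨hy.1, hy.2.trans hb⟩)

/-- The local bounds for one component, as extended nonnegative numbers. -/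
theorem sol_pointwise {CB CA M c : ℝ} (hn : 3 ≤ n) (hCB : 0 ≤ CB) (hc : c = 8 * CB + CB)
    (hloc : ∀ u f : EuclideanSpace ℝ (Fin n) → ℝ, (∀ x, 0 ≤ u x) →
      (∀ x, 0 ≤ f x) → Continuous f → Continuous u → ContDiffOn ℝ 2 u {0}ᶜ →
      (∀ x, x ≠ 0 → Laplacian.laplacian u x = -(f x)) → ∀ r h : ℝ, 1 ≤ r → 0 < h → r + h ≤ 4 →
      ∀ x, 1 ≤ ‖x‖ → ‖x‖ ≤ r + h / 2 →
        u x ≤ CB * (∫ y in ann n (r + h), ‖x - y‖ ^ (2 - (n : ℝ)) * f y) +
            CB * h ^ (-M) * (∫ y in ann n (r + h), u y) ∧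
        ‖fderiv ℝ u x‖ ≤ CB * (∫ y in ann n (r + h), ‖x - y‖ ^ (1 - (n : ℝ)) * f y) +
            CB * h ^ (-M) * (∫ y in ann n (r + h), u y))
    {u v : EuclideanSpace ℝ (Fin n) → ℝ} (h : IsSol p q u v) (hu : (∫ y in ann n 4, u y) ≤ CA)
    {r hh : ℝ} (hr : 1 ≤ r) (hh0 : 0 < hh) (hrh : r + hh ≤ 2)
    {x : EuclideanSpace ℝ (Fin n)} (hx1 : 1 ≤ ‖x‖) (hx2 : ‖x‖ ≤ r + hh / 2) :
    ENNReal.ofReal (u x) ≤ ENNReal.ofReal c *
        pot ((n : ℝ) - 2) (annFun (fun y => v y ^ p) (r + hh)) x +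
          ENNReal.ofReal (CB * hh ^ (-M) * CA) ∧
    ENNReal.ofReal (u x) ≤ ENNReal.ofReal c *
        pot ((n : ℝ) - 1) (annFun (fun y => v y ^ p) (r + hh)) x +
          ENNReal.ofReal (CB * hh ^ (-M) * CA) ∧
    ENNReal.ofReal ‖fderiv ℝ u x‖ ≤ ENNReal.ofReal c *
        pot ((n : ℝ) - 1) (annFun (fun y => v y ^ p) (r + hh)) x +
          ENNReal.ofReal (CB * hh ^ (-M) * CA) := by
  have hn' : (3 : ℝ) ≤ n := by exact_mod_cast hn
  have hg0 : ∀ y, 0 ≤ v y ^ p := fun y => Real.rpow_nonneg (h.posV y).le _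
  have hwA := (ann_mono_integral h.contU (fun y => (h.posU y).le)
    (by linarith : r + hh ≤ 4)).trans hu
  have hgen : ∀ (val m : ℝ),
      val ≤ CB * (∫ y in ann n (r + hh), ‖x - y‖ ^ (-m) * v y ^ p) +
        CB * hh ^ (-M) * (∫ y in ann n (r + hh), u y) →
      ENNReal.ofReal val ≤ ENNReal.ofReal CB * pot m (annFun (fun y => v y ^ p) (r + hh)) x +
        ENNReal.ofReal (CB * hh ^ (-M) * CA) := by
    intro val m hle
    refine (ENNReal.ofReal_le_ofReal hle).trans (ENNReal.ofReal_add_le.trans ?_)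
    refine add_le_add ?_ (ENNReal.ofReal_le_ofReal
      (mul_le_mul_of_nonneg_left hwA (by positivity)))
    rw [ENNReal.ofReal_mul hCB]
    exact mul_le_mul' le_rfl (ofReal_integral_le_pot m _ hg0 x)
  have cle : ENNReal.ofReal CB ≤ ENNReal.ofReal c :=
    ENNReal.ofReal_le_ofReal (by rw [hc]; linarith)
  have up : ENNReal.ofReal CB * pot ((n : ℝ) - 2) (annFun (fun y => v y ^ p) (r + hh)) x ≤
      ENNReal.ofReal c * pot ((n : ℝ) - 1) (annFun (fun y => v y ^ p) (r + hh)) x := by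
    refine (mul_le_mul' le_rfl (pot_le_succ (by linarith) (by linarith) (by linarith))).trans ?_
    rw [← mul_assoc, ← ENNReal.ofReal_mul hCB, show (n : ℝ) - 2 + 1 = (n : ℝ) - 1 by ring]
    exact mul_le_mul' (ENNReal.ofReal_le_ofReal (by rw [hc]; linarith)) le_rfl
  obtain ⟨l1, l2⟩ := hloc u (fun y => v y ^ p) (fun y => (h.posU y).le) hg0
    (h.contV.rpow_const fun y => Or.inl (h.posV y).ne') h.contU h.smoothU h.eqU r hh hr
    hh0 (by linarith) x hx1 hx2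
  rw [← neg_sub (n : ℝ) 2] at l1
  rw [← neg_sub (n : ℝ) 1] at l2
  have a1 := hgen _ _ l1
  exact ⟨a1.trans (add_le_add (mul_le_mul' cle le_rfl) le_rfl),
    a1.trans (add_le_add up le_rfl),
    (hgen _ _ l2).trans (add_le_add (mul_le_mul' cle le_rfl) le_rfl)⟩

/-- The boundary density on a sphere, from three potential norms. -/
theorem sphere_dens_bound {u v : EuclideanSpace ℝ (Fin n) → ℝ} (h : IsSol p q u v)
    (hp : 0 < p) (hq : 0 < q) (hcmp : ∀ x, v x ^ (p + 1) / (p + 1) ≤ u x ^ (q + 1) / (q + 1))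
    {σu σv : ℝ} (hconj : σu.HolderConjugate σv) {c e Wu Wv ρ : ℝ} (hc0 : 0 ≤ c) (he0 : 0 ≤ e)
    (heu : e ≤ Wu) (hev : e ≤ Wv) {fu fv : EuclideanSpace ℝ (Fin n) → ℝ≥0∞}
    (hfu : Measurable fu) (hfv : Measurable fv) {m₁ m₂ : ℝ}
    (g1 : potNorm m₁ (q + 1) fu ρ ≤ ENNReal.ofReal Wu)
    (g2 : potNorm m₂ σu fu ρ ≤ ENNReal.ofReal Wu) (g3 : potNorm m₂ σv fv ρ ≤ ENNReal.ofReal Wv)
    (hpt : ∀ θ : sphere (0 : EuclideanSpace ℝ (Fin n)) 1,
      let x := ρ • (θ : EuclideanSpace ℝ (Fin n))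
      (ENNReal.ofReal (u x) ≤ ENNReal.ofReal c * pot m₁ fu x + ENNReal.ofReal e) ∧
      (ENNReal.ofReal (u x) ≤ ENNReal.ofReal c * pot m₂ fu x + ENNReal.ofReal e) ∧
      (ENNReal.ofReal ‖fderiv ℝ u x‖ ≤ ENNReal.ofReal c * pot m₂ fu x + ENNReal.ofReal e) ∧
      (ENNReal.ofReal (v x) ≤ ENNReal.ofReal c * pot m₂ fv x + ENNReal.ofReal e) ∧
      (ENNReal.ofReal ‖fderiv ℝ v x‖ ≤ ENNReal.ofReal c * pot m₂ fv x + ENNReal.ofReal e)) :
    slice volume (fun x => ENNReal.ofReal (sphereDens p q u v x)) ρ ≤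
      ENNReal.ofReal ((1 + (p + 1) / (q + 1)) * (2 ^ (q + 1) * (c ^ (q + 1) +
        (volume : Measure (EuclideanSpace ℝ (Fin n))).toSphere.real univ) * Wu ^ (q + 1))) +
      3 * (ENNReal.ofReal ((2 ^ σu * (c ^ σu +
          (volume : Measure (EuclideanSpace ℝ (Fin n))).toSphere.real univ)) ^ (1 / σu) * Wu) *
        ENNReal.ofReal ((2 ^ σv * (c ^ σv +
          (volume : Measure (EuclideanSpace ℝ (Fin n))).toSphere.real univ)) ^ (1 / σv) * Wv)) := by
  have hWu : 0 ≤ Wu := he0.trans heu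
  have hWv : 0 ≤ Wv := he0.trans hev
  set κ := (p + 1) / (q + 1) with hκ
  have hκ0 : 0 ≤ κ := by positivity
  set S := (volume : Measure (EuclideanSpace ℝ (Fin n))).toSphere
  have s1 := slice_pot_le (by linarith : (1 : ℝ) ≤ q + 1) hc0 he0 heu g1
  have s2 := slice_pot_le hconj.lt.le hc0 he0 heu g2
  have s3 := slice_pot_le hconj.symm.lt.le hc0 he0 hev g3
  set H := fun (m : ℝ) (f : EuclideanSpace ℝ (Fin n) → ℝ≥0∞)
      (θ : sphere (0 : EuclideanSpace ℝ (Fin n)) 1) =>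
    ENNReal.ofReal c * pot m f (ρ • (θ : EuclideanSpace ℝ (Fin n))) + ENNReal.ofReal e with hH
  have hmP : ∀ (m : ℝ) {f : EuclideanSpace ℝ (Fin n) → ℝ≥0∞}, Measurable f → Measurable (H m f) :=
    fun m f hf => (((measurable_pot m hf).comp
      (measurable_subtype_coe.const_smul ρ)).const_mul _).add measurable_const
  calc slice volume (fun x => ENNReal.ofReal (sphereDens p q u v x)) ρ
      ≤ ∫⁻ θ, (ENNReal.ofReal (1 + κ) * H m₁ fu θ ^ (q + 1) + 3 * (H m₂ fu θ * H m₂ fv θ)) ∂S := by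
        refine lintegral_mono fun θ => ?_
        obtain ⟨a, b, c', d, e'⟩ := hpt θ
        set x := ρ • (θ : EuclideanSpace ℝ (Fin n))
        have hup := (h.posU x).le
        have hvp := (h.posV x).le
        have hen : energy p q u v x ≤ (1 + κ) * u x ^ (q + 1) := by
          have := hcmp x
          rw [div_le_iff₀ (by linarith)] at this
          have e2 : u x ^ (q + 1) / (q + 1) * (p + 1) = κ * u x ^ (q + 1) := by rw [hκ]; ring
          simp only [energy]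
          linarith
        show ENNReal.ofReal (sphereDens p q u v x) ≤ ENNReal.ofReal (1 + κ) *
            (ENNReal.ofReal c * pot m₁ fu x + ENNReal.ofReal e) ^ (q + 1) +
          3 * ((ENNReal.ofReal c * pot m₂ fu x + ENNReal.ofReal e) *
            (ENNReal.ofReal c * pot m₂ fv x + ENNReal.ofReal e))
        rw [sphereDens, add_assoc, add_assoc]
        refine ENNReal.ofReal_add_le.trans (add_le_add ?_ ?_)
        · refine (ENNReal.ofReal_le_ofReal hen).trans ?_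
          rw [ENNReal.ofReal_mul (by positivity),
            ← ENNReal.ofReal_rpow_of_nonneg hup (by linarith)]
          gcongr
        · rw [ENNReal.ofReal_add (by positivity) (by positivity),
            ENNReal.ofReal_add (by positivity) (by positivity),
            ENNReal.ofReal_mul (norm_nonneg _), ENNReal.ofReal_mul hvp, ENNReal.ofReal_mul hup]
          refine le_trans (add_le_add (mul_le_mul' c' e') (add_le_add (mul_le_mul' d c')
            (mul_le_mul' b e'))) (le_of_eq (by ring))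
    _ = ENNReal.ofReal (1 + κ) * (∫⁻ θ, H m₁ fu θ ^ (q + 1) ∂S) +
        3 * ∫⁻ θ, H m₂ fu θ * H m₂ fv θ ∂S := by
        have hm : Measurable fun θ => 3 * (H m₂ fu θ * H m₂ fv θ) :=
          ((hmP _ hfu).mul (hmP _ hfv)).const_mul 3
        rw [lintegral_add_right _ hm,
          lintegral_const_mul' _ _ ENNReal.ofReal_ne_top,
          lintegral_const_mul' _ _ (by norm_num)]
    _ ≤ _ := by
        rw [ENNReal.ofReal_mul (by positivity : 0 ≤ 1 + κ)]
        refine add_le_add (mul_le_mul' le_rfl s1) (mul_le_mul' le_rfl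
          ((ENNReal.lintegral_mul_le_Lp_mul_Lq S hconj (hmP _ hfu).aemeasurable
            (hmP _ hfv).aemeasurable).trans ?_))
        have root : ∀ {σ a W : ℝ}, 0 < σ → 0 ≤ a → 0 ≤ W →
            (ENNReal.ofReal (a * W ^ σ)) ^ (1 / σ) = ENNReal.ofReal (a ^ (1 / σ) * W) := by
          intro σ a W hσ ha hW
          rw [ENNReal.ofReal_rpow_of_nonneg (by positivity) (by positivity),
            Real.mul_rpow ha (by positivity), ← Real.rpow_mul hW,
            mul_one_div_cancel hσ.ne', Real.rpow_one]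
        refine mul_le_mul' ?_ ?_
        · exact (ENNReal.rpow_le_rpow s2 (one_div_nonneg.2 hconj.pos.le)).trans
            (le_of_eq (root hconj.pos (by positivity) hWu))
        · exact (ENNReal.rpow_le_rpow s3 (one_div_nonneg.2 hconj.symm.pos.le)).trans
            (le_of_eq (root hconj.symm.pos (by positivity) hWv))

/-- Radii where three functions are below their means. -/
theorem exists_radii_three {P₁ P₂ P₃ : ℝ → ℝ≥0∞} (h1 : Measurable P₁) (h2 : Measurable P₂)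
    (h3 : Measurable P₃) {r hh b₁ b₂ b₃ : ℝ} (hh0 : 0 < hh) (hb1 : 0 < b₁) (hb2 : 0 < b₂)
    (hb3 : 0 < b₃) (i1 : ∫⁻ ρ in Icc r (r + hh / 2), P₁ ρ ≤ ENNReal.ofReal b₁)
    (i2 : ∫⁻ ρ in Icc r (r + hh / 2), P₂ ρ ≤ ENNReal.ofReal b₂)
    (i3 : ∫⁻ ρ in Icc r (r + hh / 2), P₃ ρ ≤ ENNReal.ofReal b₃) :
    ∃ K : Set ℝ, IsCompact K ∧ K ⊆ Icc r (r + hh / 2) ∧ hh / 4 ≤ volume.real K ∧
      ∀ ρ ∈ K, P₁ ρ ≤ ENNReal.ofReal (24 * hh⁻¹ * b₁) ∧ P₂ ρ ≤ ENNReal.ofReal (24 * hh⁻¹ * b₂) ∧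
        P₃ ρ ≤ ENNReal.ofReal (24 * hh⁻¹ * b₃) := by
  set G := fun ρ => P₁ ρ / ENNReal.ofReal b₁ + P₂ ρ / ENNReal.ofReal b₂ +
    P₃ ρ / ENNReal.ofReal b₃ with hG
  have hone : ∀ (P : ℝ → ℝ≥0∞) (b : ℝ), Measurable P →
      ∫⁻ ρ in Icc r (r + hh / 2), P ρ ≤ ENNReal.ofReal b →
      ∫⁻ ρ in Icc r (r + hh / 2), P ρ / ENNReal.ofReal b ≤ 1 := by
    intro P b hP hint
    simp only [div_eq_mul_inv]
    rw [lintegral_mul_const _ hP, ← div_eq_mul_inv]
    exact ENNReal.div_le_of_le_mul (by rwa [one_mul])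
  obtain ⟨K, hKc, hKs, hKv, hKG⟩ := exists_radii (G := G)
    (((h1.div_const _).add (h2.div_const _)).add (h3.div_const _))
    (a := r) (b := r + hh / 2) (by linarith) (D := 3) (by norm_num) (by norm_num) (by
      rw [lintegral_add_right _ (h3.div_const _), lintegral_add_right _ (h2.div_const _)]
      exact (add_le_add (add_le_add (hone _ _ h1 i1) (hone _ _ h2 i2)) (hone _ _ h3 i3)).trans
        (le_of_eq (by norm_num)))
  refine ⟨K, hKc, hKs, by linarith, fun ρ hρ => ?_⟩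
  have hle : ∀ (P : ℝ → ℝ≥0∞) (b : ℝ), 0 < b → P ρ / ENNReal.ofReal b ≤ G ρ →
      P ρ ≤ ENNReal.ofReal (24 * hh⁻¹ * b) := by
    intro P b hb hP
    have h := hP.trans (hKG ρ hρ)
    rw [ENNReal.div_le_iff (by simp [hb]) ENNReal.ofReal_ne_top, ← ENNReal.ofReal_ofNat 3,
      ← ENNReal.ofReal_mul (by rw [add_sub_cancel_left]; positivity),
      ← ENNReal.ofReal_mul (by rw [add_sub_cancel_left]; positivity)] at h
    refine h.trans (le_of_eq ?_)
    congr 1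
    rw [add_sub_cancel_left]
    field_simp
    ring
  exact ⟨hle _ _ hb1 (le_add_right le_self_add), hle _ _ hb2 (le_add_right le_add_self),
    hle _ _ hb3 le_add_self⟩

/-- The bookkeeping of the powers of `h` and of the energy. -/
theorem dens_alg_le {a₁ a₂ W₀ w Tu Tv H E δ' : ℝ} {q' : ℝ} (ha₁ : 0 ≤ a₁) (ha₂ : 0 ≤ a₂)
    (hW : 0 ≤ W₀) (hw : 0 ≤ w) (hTu : 0 ≤ Tu) (hTv : 0 ≤ Tv) (e1 : w ^ q' ≤ H) (e2 : w ^ 2 ≤ H)
    (e3 : Tu ^ q' ≤ E) (e4 : Tu * Tv ≤ E) (hd : δ' = a₁ * W₀ ^ q' + a₂ * W₀ ^ 2) :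
    a₁ * (W₀ * w * Tu) ^ q' + a₂ * ((W₀ * w * Tu) * (W₀ * w * Tv)) ≤ δ' * (H * E) := by
  rw [Real.mul_rpow (mul_nonneg hW hw) hTu, Real.mul_rpow hW hw, hd]
  have x1 : a₁ * (W₀ ^ q' * w ^ q' * Tu ^ q') ≤ a₁ * W₀ ^ q' * (H * E) := by
    calc a₁ * (W₀ ^ q' * w ^ q' * Tu ^ q') = a₁ * W₀ ^ q' * (w ^ q' * Tu ^ q') := by ring
      _ ≤ _ := by
        have := Real.rpow_nonneg hW q'
        exact mul_le_mul_of_nonneg_left (mul_le_mul e1 e3 (by positivity)
          ((Real.rpow_nonneg hw q').trans e1)) (by positivity)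
  have x2 : a₂ * ((W₀ * w * Tu) * (W₀ * w * Tv)) ≤ a₂ * W₀ ^ 2 * (H * E) := by
    calc a₂ * ((W₀ * w * Tu) * (W₀ * w * Tv)) = a₂ * W₀ ^ 2 * (w ^ 2 * (Tu * Tv)) := by ring
      _ ≤ _ := mul_le_mul_of_nonneg_left (mul_le_mul e2 e4 (by positivity)
          ((sq_nonneg w).trans e2)) (by positivity)
  linarith

/-- The exponents and constants of the three sliced estimates. -/
theorem sliced_three (hn : 5 ≤ n) (hq : 0 < q) {k A B : ℝ} (hkn : (n : ℝ) - 3 < ((n : ℝ) - 1) * k)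
    (hk1 : k < 1) (hA0 : 0 ≤ A) (hB0 : 0 ≤ B) (hAB : A + B = k)
    (hks : k ≤ 1 / (q + 1) + A) (hs1 : 1 / (q + 1) + A ≤ 1) :
    ∃ σu σv : ℝ, σu.HolderConjugate σv ∧ ∃ C : ℝ, 0 < C ∧
      ∀ f : EuclideanSpace ℝ (Fin n) → ℝ≥0∞, Measurable f →
        (∀ y, y ∉ closedBall (0 : EuclideanSpace ℝ (Fin n)) 4 → f y = 0) → ∀ X : ℝ, 0 ≤ X →
        ((∫⁻ y, f y ^ (1 / (1 - A))) ^ (1 - A) ≤ ENNReal.ofReal X →
          ∫⁻ ρ in Icc (1 / 2 : ℝ) 4, potNorm ((n : ℝ) - 2) (q + 1) f ρ ≤ ENNReal.ofReal (C * X) ∧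
          ∫⁻ ρ in Icc (1 / 2 : ℝ) 4, potNorm ((n : ℝ) - 1) σu f ρ ≤ ENNReal.ofReal (C * X)) ∧
        ((∫⁻ y, f y ^ (1 / (1 - B))) ^ (1 - B) ≤ ENNReal.ofReal X →
          ∫⁻ ρ in Icc (1 / 2 : ℝ) 4, potNorm ((n : ℝ) - 1) σv f ρ ≤ ENNReal.ofReal (C * X)) := by
  have hn' : (5 : ℝ) ≤ n := by exact_mod_cast hn
  have hk0 : 0 < k := by nlinarith
  set s₀ := (1 + k) / 2 with hs₀
  have hsA : 0 < s₀ - A := by rw [hs₀]; linarith
  have hsB : 0 < s₀ - B := by rw [hs₀]; linarith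
  refine ⟨1 / (s₀ - A), 1 / (s₀ - B), Real.holderConjugate_iff.2 ⟨?_, ?_⟩, ?_⟩
  · rw [one_lt_div hsA, hs₀]; linarith
  · simp only [one_div, inv_inv]; rw [hs₀]; linarith
  obtain ⟨C₁, hC₁⟩ := sliced_potNorm (n := n) (by omega) (m := (n : ℝ) - 2) (A := A)
    (s₀ := 1 / (q + 1) + A) (σ := q + 1) (by linarith) hA0
    (by have : 0 < 1 / (q + 1) := by positivity
        linarith) hs1 (by ring) (by nlinarith)
  obtain ⟨C₂, hC₂⟩ := sliced_potNorm (n := n) (by omega) (m := (n : ℝ) - 1) (A := A) (s₀ := s₀)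
    (σ := 1 / (s₀ - A)) (by linarith) hA0 (by linarith) (by linarith) (by rw [one_div_one_div])
    (by rw [hs₀]; nlinarith)
  obtain ⟨C₃, hC₃⟩ := sliced_potNorm (n := n) (by omega) (m := (n : ℝ) - 1) (A := B) (s₀ := s₀)
    (σ := 1 / (s₀ - B)) (by linarith) hB0 (by linarith) (by linarith) (by rw [one_div_one_div])
    (by rw [hs₀]; nlinarith)
  refine ⟨(C₁ : ℝ) + C₂ + C₃ + 1, by positivity, fun f hf hf0 X hX => ?_⟩
  have up : ∀ Cc : ℝ≥0, (Cc : ℝ) ≤ (C₁ : ℝ) + C₂ + C₃ + 1 →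
      (Cc : ℝ≥0∞) * ENNReal.ofReal X ≤ ENNReal.ofReal (((C₁ : ℝ) + C₂ + C₃ + 1) * X) := by
    intro Cc hle
    rw [← ENNReal.ofReal_coe_nnreal, ← ENNReal.ofReal_mul Cc.coe_nonneg]
    exact ENNReal.ofReal_le_ofReal (mul_le_mul_of_nonneg_right hle hX)
  refine ⟨fun h => ⟨?_, ?_⟩, fun h => ?_⟩
  · exact (hC₁ f hf hf0).trans ((mul_le_mul' le_rfl h).trans
      (up C₁ (by linarith [C₂.coe_nonneg, C₃.coe_nonneg])))
  · exact (hC₂ f hf hf0).trans ((mul_le_mul' le_rfl h).trans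
      (up C₂ (by linarith [C₁.coe_nonneg, C₃.coe_nonneg])))
  · exact (hC₃ f hf hf0).trans ((mul_le_mul' le_rfl h).trans
      (up C₃ (by linarith [C₁.coe_nonneg, C₂.coe_nonneg])))

/-- The `L^(1/(1-A))` norm of `v ^ p` on an annulus. -/
theorem norm_annFun_le {u v : EuclideanSpace ℝ (Fin n) → ℝ} (h : IsSol p q u v) {s A L b : ℝ}
    (hs : 0 < s) (hA0 : 0 ≤ A) (hA : A * (s + 1) ≤ 1) (hL : 1 ≤ L) (hb : b ≤ 4)
    {w : EuclideanSpace ℝ (Fin n) → ℝ} (hw : Continuous w) (hw0 : ∀ y, 0 < w y)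
    (hwL : (∫ y in ann n 4, w y ^ s) ≤ L) (hle : ∀ y, w y ^ (s + 1) ≤ energy p q u v y) :
    (∫⁻ y, annFun (fun z => w z ^ s) b y ^ (1 / (1 - A))) ^ (1 - A) ≤
      ENNReal.ofReal (L * (1 + ∫ y in closedBall (0 : EuclideanSpace ℝ (Fin n)) b,
        energy p q u v y) ^ (s * A)) := by
  have hcw : Continuous fun y => w y ^ s := hw.rpow_const fun y => Or.inr hs.le
  have hw0' : ∀ y, 0 ≤ w y ^ s := fun y => Real.rpow_nonneg (hw0 y).le _
  refine norm_bound (measurable_annFun hcw b) hs hA0 hA hL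
    (le_add_of_nonneg_right (setIntegral_nonneg isClosed_closedBall.measurableSet fun x _ =>
      h.energy_nonneg x)) ?_ ?_
  · rw [lintegral_annFun hcw hw0']
    exact ENNReal.ofReal_le_ofReal ((ann_mono_integral hcw hw0' hb).trans hwL)
  · exact (lintegral_top_le h hs hw hw0 hle).trans
      (ENNReal.ofReal_le_ofReal (le_add_of_nonneg_left zero_le_one))

/-- The powers of `h`: both the good radii and the error term fit under `W₀ h^(-(M+1))`. -/
theorem step_weight {W₀ R E M hh X : ℝ} (hR : 0 ≤ R) (hE : 0 ≤ E) (hW : W₀ = 24 * R + E)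
    (hM : 0 ≤ M) (hh0 : 0 < hh) (hh1 : hh ≤ 1) (hX : 1 ≤ X) :
    24 * hh⁻¹ * (R * X) ≤ W₀ * hh ^ (-(M + 1)) * X ∧
      E * hh ^ (-M) ≤ W₀ * hh ^ (-(M + 1)) * X := by
  have hhM : hh ^ (-M) ≤ hh ^ (-(M + 1)) :=
    Real.rpow_le_rpow_of_exponent_ge hh0 hh1 (by linarith)
  have hhi : hh⁻¹ ≤ hh ^ (-(M + 1)) := by
    rw [← Real.rpow_neg_one]
    exact Real.rpow_le_rpow_of_exponent_ge hh0 hh1 (by linarith)
  constructor
  · calc 24 * hh⁻¹ * (R * X) = 24 * R * hh⁻¹ * X := by ring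
      _ ≤ _ := mul_le_mul_of_nonneg_right (mul_le_mul (by rw [hW]; linarith) hhi
          (by positivity) (by rw [hW]; linarith)) (by linarith)
  · calc E * hh ^ (-M) ≤ W₀ * hh ^ (-(M + 1)) :=
          mul_le_mul (by rw [hW]; linarith) hhM (by positivity) (by rw [hW]; linarith)
      _ ≤ _ := le_mul_of_one_le_right (by rw [hW]; positivity) hX

/-- The density on good radii, in powers of `h` and of `1 +` the energy. -/
theorem dens_final {a₁ a₂ W₀ M hh T A B : ℝ} (ha₁ : 0 ≤ a₁) (ha₂ : 0 ≤ a₂) (hW : 0 ≤ W₀)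
    (hM : 0 ≤ M) (hq : 0 < q) (hh0 : 0 < hh) (hh1 : hh ≤ 1) (hT : 1 ≤ T) :
    a₁ * (W₀ * hh ^ (-(M + 1)) * T ^ (p * A)) ^ (q + 1) +
        a₂ * ((W₀ * hh ^ (-(M + 1)) * T ^ (p * A)) * (W₀ * hh ^ (-(M + 1)) * T ^ (q * B))) ≤
      (a₁ * W₀ ^ (q + 1) + a₂ * W₀ ^ 2) *
        (hh ^ (-((M + 1) * (q + 3))) * T ^ max (p * A * (q + 1)) (p * A + q * B)) := by
  refine dens_alg_le ha₁ ha₂ hW (by positivity) (by positivity) (by positivity) ?_ ?_ ?_ ?_ rfl
  · rw [← Real.rpow_mul hh0.le]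
    exact Real.rpow_le_rpow_of_exponent_ge hh0 hh1 (by nlinarith)
  · rw [← Real.rpow_two, ← Real.rpow_mul hh0.le]
    exact Real.rpow_le_rpow_of_exponent_ge hh0 hh1 (by nlinarith)
  · rw [← Real.rpow_mul (by linarith)]
    exact Real.rpow_le_rpow_of_exponent_le hT (le_max_left _ _)
  · rw [← Real.rpow_add (by linarith)]
    exact Real.rpow_le_rpow_of_exponent_le hT (le_max_right _ _)

/-- The energy of a ball is controlled by a power less than one of a larger one. -/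
theorem energy_step (hn : 5 ≤ n) (hq : 0 < q) (hqp : q ≤ p) (hpq : 1 < p * q)
    (ha : (n : ℝ) - 3 < 2 * (p + 1) / (p * q - 1))
    (hsub : ((n : ℝ) - 2) < (n : ℝ) / (p + 1) + (n : ℝ) / (q + 1)) (hB : LocalBounds n) :
    ∃ C M δ : ℝ, 0 ≤ C ∧ 0 ≤ M ∧ 0 ≤ δ ∧ δ < 1 ∧
      ∀ u v : EuclideanSpace ℝ (Fin n) → ℝ, IsSol p q u v →
        ∀ r h : ℝ, 1 ≤ r → 0 < h → h ≤ 1 → r + h ≤ 2 →
          ∫ x in closedBall (0 : EuclideanSpace ℝ (Fin n)) r, energy p q u v x ≤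
            C * h ^ (-M) *
              (1 + ∫ x in closedBall (0 : EuclideanSpace ℝ (Fin n)) (r + h), energy p q u v x) ^
                δ := by
  have hp : 0 < p := hq.trans_le hqp
  obtain ⟨k, A, B, hkn, hk1, hA0, hB0, hAB, hA1, hB1, hAp, hBq, hks, hs1, hd1, hd2⟩ :=
    exists_exponents (by exact_mod_cast hn : (5 : ℝ) ≤ n) hq hqp hpq ha
  obtain ⟨σu, σv, hconj, Cs, hCs, hsl⟩ := sliced_three hn hq hkn hk1 hA0 hB0 hAB hks hs1
  obtain ⟨CA, hCA, hann⟩ := ann_bounds (n := n) (by omega) hp hq hpq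
  obtain ⟨CB, M, hCB, hM, hloc⟩ := hB
  have hR : 0 ≤ Cs * (CA + 1) := by positivity
  have hE : 0 ≤ CB * CA := by positivity
  obtain ⟨W₀, hW₀⟩ : ∃ W₀, W₀ = 24 * (Cs * (CA + 1)) + CB * CA := ⟨_, rfl⟩
  obtain ⟨c, hc⟩ : ∃ c, c = 8 * CB + CB := ⟨_, rfl⟩
  obtain ⟨m₀, hm₀⟩ : ∃ m₀, m₀ = (volume : Measure (EuclideanSpace ℝ (Fin n))).toSphere.real univ :=
    ⟨_, rfl⟩
  have hm0 : 0 ≤ m₀ := hm₀ ▸ measureReal_nonneg
  have hc0 : 0 ≤ c := by rw [hc]; positivity
  have hW0 : 0 ≤ W₀ := by rw [hW₀]; positivity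
  obtain ⟨a₁, ha₁⟩ : ∃ a, a = (1 + (p + 1) / (q + 1)) * (2 ^ (q + 1) * (c ^ (q + 1) + m₀)) :=
    ⟨_, rfl⟩
  obtain ⟨a₂, ha₂⟩ : ∃ a, a = 3 * ((2 ^ σu * (c ^ σu + m₀)) ^ (1 / σu) *
      (2 ^ σv * (c ^ σv + m₀)) ^ (1 / σv)) := ⟨_, rfl⟩
  have ha10 : 0 ≤ a₁ := by rw [ha₁]; positivity
  have ha20 : 0 ≤ a₂ := by rw [ha₂]; positivity
  refine ⟨4 * (|pohoConst n p q * 2 ^ (n - 1) / margin n p q| *
      (a₁ * W₀ ^ (q + 1) + a₂ * W₀ ^ 2)), (M + 1) * (q + 3) + 1,
    max (p * A * (q + 1)) (p * A + q * B), by positivity, by positivity,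
    le_max_of_le_right (by positivity), max_lt hd1 hd2, fun u v h r hh hr hh0 hh1 hrh => ?_⟩
  have hcv : Continuous fun y => v y ^ p := h.contV.rpow_const fun y => Or.inl (h.posV y).ne'
  have hcu : Continuous fun y => u y ^ q := h.contU.rpow_const fun y => Or.inl (h.posU y).ne'
  have hb4 : r + hh ≤ 4 := by linarith
  obtain ⟨bu, bv, bf, bg⟩ := hann u v h
  have hF0 : 0 ≤ ∫ x in closedBall (0 : EuclideanSpace ℝ (Fin n)) (r + hh), energy p q u v x :=
    setIntegral_nonneg isClosed_closedBall.measurableSet fun x _ => h.energy_nonneg x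
  obtain ⟨T, hT⟩ : ∃ T, T = 1 + ∫ x in closedBall (0 : EuclideanSpace ℝ (Fin n)) (r + hh),
      energy p q u v x := ⟨_, rfl⟩
  have hT1 : 1 ≤ T := by rw [hT]; linarith
  have nu := norm_annFun_le h hp hA0 hAp (L := CA + 1) (by linarith) hb4 h.contV h.posV
    (by linarith) fun y => le_add_of_nonneg_left (Real.rpow_nonneg (h.posU y).le _)
  have nv := norm_annFun_le h hq hB0 hBq (L := CA + 1) (by linarith) hb4 h.contU h.posU
    (by linarith) fun y => le_add_of_nonneg_right (Real.rpow_nonneg (h.posV y).le _)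
  rw [← hT] at nu nv ⊢
  have hTA : 1 ≤ T ^ (p * A) := Real.one_le_rpow hT1 (by positivity)
  have hTB : 1 ≤ T ^ (q * B) := Real.one_le_rpow hT1 (by positivity)
  obtain ⟨i1, i2⟩ := (hsl _ (measurable_annFun hcv _)
    (fun y hy => annFun_eq_zero _ hb4 hy) _ (by positivity)).1 nu
  have i3 := (hsl _ (measurable_annFun hcu _)
    (fun y hy => annFun_eq_zero _ hb4 hy) _ (by positivity)).2 nv
  have sub : Icc r (r + hh / 2) ⊆ Icc (1 / 2 : ℝ) 4 :=
    Icc_subset_Icc (by linarith) (by linarith)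
  obtain ⟨K, hKc, hKs, hKv, hKP⟩ := exists_radii_three
    (measurable_potNorm ((n : ℝ) - 2) (q + 1) (measurable_annFun hcv (r + hh)))
    (measurable_potNorm ((n : ℝ) - 1) σu (measurable_annFun hcv (r + hh)))
    (measurable_potNorm ((n : ℝ) - 1) σv (measurable_annFun hcu (r + hh))) hh0
    (by positivity) (by positivity) (by positivity)
    ((lintegral_mono_set sub).trans i1) ((lintegral_mono_set sub).trans i2)
    ((lintegral_mono_set sub).trans i3)
  obtain ⟨w1, w2⟩ := step_weight hR hE hW₀ hM hh0 hh1 hTA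
  obtain ⟨w3, w4⟩ := step_weight hR hE hW₀ hM hh0 hh1 hTB
  rw [mul_assoc Cs] at w1 w3
  have hp1 : 1 < p := by nlinarith
  have hcmp := souplet_comparison_punctured (by omega) hq hqp hp1 u v h.contU h.contV h.smoothU
    h.smoothV h.posU h.posV h.eqU h.eqV
  have hslice : ∀ ρ ∈ K, slice volume (fun x => ENNReal.ofReal (sphereDens p q u v x)) ρ ≤
      ENNReal.ofReal ((a₁ * W₀ ^ (q + 1) + a₂ * W₀ ^ 2) *
        (hh ^ (-((M + 1) * (q + 3))) * T ^ max (p * A * (q + 1)) (p * A + q * B))) := by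
    intro ρ hρ
    obtain ⟨g1, g2, g3⟩ := hKP ρ hρ
    have hρ1 : 1 ≤ ρ := hr.trans (hKs hρ).1
    refine (sphere_dens_bound h hp hq hcmp hconj hc0 (e := CB * CA * hh ^ (-M)) (by positivity)
      w2 w4 (measurable_annFun hcv (r + hh)) (measurable_annFun hcu (r + hh))
      (g1.trans (ENNReal.ofReal_le_ofReal w1)) (g2.trans (ENNReal.ofReal_le_ofReal w1))
      (g3.trans (ENNReal.ofReal_le_ofReal w3)) fun θ => ?_).trans ?_
    · have hρn : ‖ρ • (θ : EuclideanSpace ℝ (Fin n))‖ = ρ := by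
        simp [norm_smul, abs_of_pos (zero_lt_one.trans_le hρ1)]
      obtain ⟨a, b, c'⟩ := sol_pointwise (by omega) hCB hc hloc h bu hr hh0 hrh
        (x := ρ • (θ : EuclideanSpace ℝ (Fin n))) (by rw [hρn]; exact hρ1)
        (by rw [hρn]; exact (hKs hρ).2)
      obtain ⟨-, d, e'⟩ := sol_pointwise (by omega) hCB hc hloc h.swap bv hr hh0 hrh
        (x := ρ • (θ : EuclideanSpace ℝ (Fin n))) (by rw [hρn]; exact hρ1)
        (by rw [hρn]; exact (hKs hρ).2)
      rw [mul_right_comm CB CA]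
      exact ⟨a, b, c', d, e'⟩
    · rw [← hm₀, ← ENNReal.ofReal_mul (by positivity), ← ENNReal.ofReal_ofNat 3,
        ← ENNReal.ofReal_mul (by positivity), ← ENNReal.ofReal_add (by positivity) (by positivity)]
      refine ENNReal.ofReal_le_ofReal (le_of_eq_of_le ?_ (dens_final (p := p) (A := A) (B := B)
        ha10 ha20 hW0 hM hq hh0 hh1 hT1))
      rw [ha₁, ha₂]; ring
  have hgu := Puncture.integrableOn_norm_fderiv_sq (μ := (volume : Measure (EuclideanSpace ℝ (Fin n))))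
    (by rw [finrank_euclideanSpace_fin]; omega) h.contU h.smoothU hcv.neg h.eqU
    (isCompact_closedBall (0 : EuclideanSpace ℝ (Fin n)) 1)
  have hgv := Puncture.integrableOn_norm_fderiv_sq (μ := (volume : Measure (EuclideanSpace ℝ (Fin n))))
    (by rw [finrank_euclideanSpace_fin]; omega) h.contV h.smoothV hcu.neg h.eqV
    (isCompact_closedBall (0 : EuclideanSpace ℝ (Fin n)) 1)
  have key := ball_bound_of_good_radii (by omega) hp hq hsub h hgu hgv hKc hr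
    (hKs.trans (Icc_subset_Icc le_rfl (by linarith))) (by positivity) hslice
  have hkey2 := le_trans (mul_le_mul_of_nonneg_right hKv
    (setIntegral_nonneg isClosed_closedBall.measurableSet fun x _ => h.energy_nonneg x))
    (key.trans (mul_le_mul_of_nonneg_right (le_abs_self _) (by positivity)))
  rw [div_mul_eq_mul_div, div_le_iff₀ (by norm_num : (0 : ℝ) < 4), ← le_div_iff₀' hh0] at hkey2
  refine hkey2.trans (le_of_eq ?_)
  rw [show -((M + 1) * (q + 3) + 1) = -((M + 1) * (q + 3)) + -1 by ring, Real.rpow_add hh0,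
    Real.rpow_neg_one]
  ring

/-- No solution when `max (α, β) > n - 3`, given the local potential bounds. -/
theorem souplet_range_of_local (hn : 5 ≤ n) (hq : 0 < q) (hqp : q ≤ p) (hpq : 1 < p * q)
    (ha : (n : ℝ) - 3 < 2 * (p + 1) / (p * q - 1))
    (hsub : ((n : ℝ) - 2) < (n : ℝ) / (p + 1) + (n : ℝ) / (q + 1)) (hB : LocalBounds n) :
    ¬ ∃ u v : EuclideanSpace ℝ (Fin n) → ℝ, IsSol p q u v := by
  obtain ⟨C, M, δ, hC, hM, hδ0, hδ1, hstep⟩ := energy_step hn hq hqp hpq ha hsub hB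
  obtain ⟨C', hC'⟩ := iterate_bound hδ0 hδ1 hM hC
  refine nonexistence_of_unit_bound (hq.trans_le hqp) hq hpq hsub (C := C') fun u v h => ?_
  refine hC' (fun r => ∫ x in closedBall (0 : EuclideanSpace ℝ (Fin n)) r, energy p q u v x)
    (fun r => setIntegral_nonneg isClosed_closedBall.measurableSet fun x _ => h.energy_nonneg x)
    ⟨∫ x in closedBall (0 : EuclideanSpace ℝ (Fin n)) 2, energy p q u v x, fun r hr => ?_⟩
    (hstep u v h)
  exact setIntegral_mono_set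
    (h.continuous_energy.continuousOn.integrableOn_compact (isCompact_closedBall _ _))
    (ae_of_all _ h.energy_nonneg)
    (LE.le.eventuallyLE (closedBall_subset_closedBall hr.2))

end Vale.Agent.P100.Souplet
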