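import Mathlib
import Vale.Agent.P100.Souplet.Local
import Vale.Agent.P100.Souplet.Main

/-!
# Souplet's range

No solution when `max (α, β) > n - 3`, unconditionally.
-/

namespace Vale.Agent.P100.Souplet

variable {n : ℕ} {p q : ℝ}

/-- The local potential bounds hold in every dimension `n ≥ 3`. -/
theorem localBounds (hn : 3 ≤ n) : LocalBounds n := local_bounds hn

/-- **No solution when `max (α, β) > n - 3`.** -/
theorem souplet_range (hn : 5 ≤ n) (hq : 0 < q) (hqp : q ≤ p) (hpq : 1 < p * q)
    (ha : (n : ℝ) - 3 < 2 * (p + 1) / (p * q - 1))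
    (hsub : ((n : ℝ) - 2) < (n : ℝ) / (p + 1) + (n : ℝ) / (q + 1)) :
    ¬ ∃ u v : EuclideanSpace ℝ (Fin n) → ℝ, IsSol p q u v :=
  souplet_range_of_local hn hq hqp hpq ha hsub (localBounds (by omega))

end Vale.Agent.P100.Souplet
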